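import Claimed.Agent.R252.Base.HubDefs
import Claimed.Agent.R252.Glue.Defs
import Claimed.Agent.R252.S4.Rebase
import Claimed.Agent.R252.S2a.SeqContract
import Claimed.Agent.R252.S2s.Hub
import Claimed.Agent.R252.Norm.Exist
import Claimed.Agent.R252.S2b.Exit

/-!
# ROW 252 (S0492), unit BASE (architect helper103), file 6: THE HUB STATEMENTS OF SECTION 2.      NO `sorry` (21:25Z Oct 14): `kb_horizon_le`, `kb_reduction` are wired to `S2b/Exit.lean` (helper264, 123, 171).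

These are the ONLY facts of Section 2 that Sections 3-9 may use at the sequence level.  Owners:  S2aA helper129 (`kb_typ_*`, `kb_profile`, `kb_homog`, `kb_coarse`),
S2aB helper78 (`kb_sat`, `kb_axis`),  S2aC helper22 (`kb_norm`, `kb_lift_*`, `kb_narrow_add`),  S2b helper264 (`kb_horizon_le`, `kb_reduction`).
STATUS 20:45Z Oct 14: S2aA (`S2a/`), S2aB (`S2s/`), S2aC (`Norm/`) are CLOSED (no `sorry`); their hubs are proved here by `exact k2a_hub_* / k2s_hub_* / k2n_hub_*`.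
-/

set_option autoImplicit false

namespace Claimed.Agent.R252

open MeasureTheory Filter Topology
open Claimed.Agent.R255 (uf)
open scoped ENNReal BigOperators

noncomputable section

variable {v : KbVer}

/-! ## S2aA (helper129): densities, homogenisation, angular coarsening -/

/-- L2.3: typical densities survive every measurable selection (it is meaningful for dense ones) -/
theorem kb_typ_sel (E : KbEx v) (hE : E.Ok) {D : Type} (ℓ : E.Lab D) (hℓ : E.LabOk ℓ) (f : ℝ) (h : E.Typ ℓ f)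
    (S : E.Sel) (hS : ∀ᶠ k in uf, ∀ γ, MeasurableSet (S k γ)) : (E.sel S).Typ ℓ f := by
  obtain ⟨hc, hm⟩ := hℓ
  haveI := hc
  exact k2a_hub_typ_sel E hE ℓ hm f h S hS

/-- the exponent of a typical density is unique -/
theorem kb_typ_unique (E : KbEx v) (hE : E.Ok) {D : Type} (ℓ : E.Lab D) (hℓ : E.LabOk ℓ) (f f' : ℝ) (h : E.Typ ℓ f) (h' : E.Typ ℓ f') :
    f = f' := by
  exact k2a_hub_typ_unique E hE ℓ f f' h h'

/-- L2.3: refinement by a label which is known up to subpower lists does not change the exponent -/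
theorem kb_typ_refine (E : KbEx v) (hE : E.Ok) {D D' : Type} (ℓ : E.Lab D) (ℓ' : E.Lab D') (hℓ : E.LabOk ℓ) (hℓ' : E.LabOk ℓ') (f : ℝ)
    (h : E.Typ ℓ f)
    (hl : ∀ τ : ℝ, 0 < τ → ∀ᶠ k in uf, ∃ Lst : (E.P k).W → D → ℝ × KbB v → Finset D', (∀ γ d o, ((Lst γ d o).card : ℝ) ≤ E.R.N k ^ τ) ∧
      (∀ γ d d', MeasurableSet {o | d' ∈ Lst γ d o}) ∧ ∀ γ, ∀ x ∈ (E.P k).Ev γ, ℓ' k γ x ∈ Lst γ (ℓ k γ x) ((E.P k).bs γ x)) :
    E.Typ (fun k => (E.P k).lpair (ℓ k) (ℓ' k)) f := by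
  obtain ⟨hc, hm⟩ := hℓ
  obtain ⟨hc', hm'⟩ := hℓ'
  haveI := hc
  haveI := hc'
  exact k2a_hub_typ_refine E hE ℓ ℓ' hm hm' f h hl

/-- a selection of a dense selection is Ok -/
theorem kb_sel_ok (E : KbEx v) (hE : E.Ok) (S : E.Sel) (hS : E.Dense S) : (E.sel S).Ok := by
  exact k2a_hub_sel_ok E hE S hS.1 hS.2

/-- L2.5, second half -/
theorem kb_profile (E : KbEx v) (hE : E.Ok) (f : ℝ → ℝ → ℝ) (h : E.Hom f) : KbProfile E.L v.j f := by
  exact ⟨fun r r' u h0 hr hL hu => k2a_hub_profile_r_mono E hE f h r r' u h0 hr hL hu,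
    fun r r' u h0 hr hL hu => k2a_hub_profile_r_lip E hE f h r r' u h0 hr hL hu,
    fun r u u' h0 hL hu huu => k2a_hub_profile_u_mono E hE f h r u u' h0 hL hu huu,
    fun r u u' h0 hL hu huu => k2a_hub_profile_u_lip E hE f h r u u' h0 hL hu huu⟩

/-- **L2.5 homogenisation** -/
theorem kb_homog (E : KbEx v) (hE : E.Ok) : ∃ (S : E.Sel) (f : ℝ → ℝ → ℝ), E.Dense S ∧ (E.sel S).Hom f := by
  exact k2a_hub_homog E hE

/-- homogeneity survives dense selections -/
theorem kb_hom_sel (E : KbEx v) (hE : E.Ok) (f : ℝ → ℝ → ℝ) (h : E.Hom f) (S : E.Sel) (hS : E.Dense S) : (E.sel S).Hom f := by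
  exact k2a_hub_hom_sel E hE f h S hS.1

/-- the cap class survives dense selections -/
theorem kb_cap_sel (E : KbEx v) (d S₀ η : ℝ) (f : ℝ → ℝ → ℝ) (h : E.Cap d S₀ η f) (S : E.Sel) (hS : E.Dense S) : (E.sel S).Cap d S₀ η f := by
  exact k2a_hub_cap_sel E d S₀ η f h S hS.1 hS.2

/-- **L2.7 angular caps under coarsening**, as an inequality between profiles -/
theorem kb_coarse (E : KbEx v) (d S η : ℝ) (f : ℝ → ℝ → ℝ) (h : E.Cap d S η f) (b u : ℝ) (hb : 0 ≤ b) (hbL : b ≤ E.L) (hu : 0 < u)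
    (huL : u ≤ η * E.L) : f b 0 + S * u ≤ f b u :=
  k2a_hub_coarse E d S η f h b u hb hbL hu huL

/-! ## S2aB (helper78): saturation, largest axis -/

/-- **L2.10 saturation and label knowledge** -/
theorem kb_sat (E : KbEx v) (hE : E.Ok) (f : ℝ → ℝ → ℝ) (hf : E.Hom f) (Y : E.Sys) (r h : ℝ) (hr : 0 < r) (hrL : r ≤ E.L)
    (hY : E.IsTrueSys f Y r h) :
    ∃ (keep : ∀ k, Set (Y k).C) (S' : ∀ k, (Y k).C → Set ((E.P k).Lam × ℝ)),
      E.IsTrueSys f (E.restr Y keep S') r h ∧ E.IsSat (E.restr Y keep S') (f r 0) ∧ E.IsKnown (E.restr Y keep S') r := by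
  exact k2s_hub_sat E hE f hf Y r h hr hrL hY

/-- a label known by `p_s` is known by every finer `p_{s'}` -/
theorem kb_known_mono (E : KbEx v) (hE : E.Ok) (Y : E.Sys) (s s' : ℝ) (hs : s ≤ s') (h : E.IsKnown Y s) : E.IsKnown Y s' := by
  exact k2s_hub_known_mono E hE Y s s' hs h

/-- **L2.12 fullness of the largest spatial scale** -/
theorem kb_axis (E : KbEx v) (d S η : ℝ) (hS : 0 < S) (hη : 0 < η) (f : ℝ → ℝ → ℝ) (hE : E.Cap d S η f) (Y : E.Sys) (r h : ℝ)
    (hY : E.IsAtlas Y r h) (α : ℝ) (hα : 0 < α) :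
    KbPow E.R (E.chMass Y fun k c => kbMn ((Y k).ch c).D ≤ E.R.N k ^ (-α) * (Y k).q) := by
  exact k2s_hub_axis E d S η hS hη f hE Y r h hY α hα

/-! ## S2aC (helper22): normalisation and lifting -/

/-- **L2.13, first half**, primary form (asked by helper128).  `e` = common exponent of `J_c / ν_c` (`= N^{-e}`).   The JOINT inequality `f (r+s) u + e ≤ f' s u` contains (2.19) (`u = 0`) and the angular bound (`s = L - r`); no cap is assumed. -/
theorem kb_norm_ang (E : KbEx v) (hE : E.Ok) (f : ℝ → ℝ → ℝ) (hf : E.Hom f) (Y : E.Sys) (r h : ℝ) (hr : 0 ≤ r) (hrL : r < E.L)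
    (hY : E.IsAtlas Y r h) :
    ∃ (keep : ∀ k, Set (Y k).C) (S' : ∀ k, (Y k).C → Set ((E.P k).Lam × ℝ)) (e : ℝ) (f' : ℝ → ℝ → ℝ),
      E.IsAtlas (E.restr Y keep S') r h ∧
      E.ChExp (E.restr Y keep S') (fun k c => ((E.restr Y keep S' k).ch c).J / ((E.restr Y keep S' k).nuC c).toReal) e ∧
      (E.norm (E.restr Y keep S') r).Ok ∧ (E.norm (E.restr Y keep S') r).Hom f' ∧
      f' (E.L - r) 0 = f E.L 0 + e ∧
      (∀ s u : ℝ, 0 ≤ s → s ≤ E.L - r → 0 ≤ u → f (r + s) u + e ≤ f' s u) ∧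
      (E.IsKnown Y r → ∀ s : ℝ, 0 ≤ s → s ≤ E.L - r → f' s 0 = f (r + s) 0 + e) ∧
      (E.IsTrue Y (f r 0) → E.IsTrue (E.restr Y keep S') (f r 0)) := by
  obtain ⟨keep, S', e, f', h1, h2, h3, h4, h5, -, h7, h8, -, h10⟩ := k2n_hub_norm' E hE f hf Y r h hr hrL hY
  exact ⟨keep, S', e, f', h1, h2, h3, h4, h5, h10, h7, h8⟩

/-- **L2.13, first half.**  `e` = common exponent of `J_c / ν_c` (`= N^{-e}`). -/
theorem kb_norm (E : KbEx v) (hE : E.Ok) (f : ℝ → ℝ → ℝ) (hf : E.Hom f) (Y : E.Sys) (r h : ℝ) (hr : 0 ≤ r) (hrL : r < E.L)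
    (hY : E.IsAtlas Y r h) :
    ∃ (keep : ∀ k, Set (Y k).C) (S' : ∀ k, (Y k).C → Set ((E.P k).Lam × ℝ)) (e : ℝ) (f' : ℝ → ℝ → ℝ),
      E.IsAtlas (E.restr Y keep S') r h ∧
      E.ChExp (E.restr Y keep S') (fun k c => ((E.restr Y keep S' k).ch c).J / ((E.restr Y keep S' k).nuC c).toReal) e ∧
      (E.norm (E.restr Y keep S') r).Ok ∧ (E.norm (E.restr Y keep S') r).Hom f' ∧
      f' (E.L - r) 0 = f E.L 0 + e ∧
      (∀ s : ℝ, 0 ≤ s → s ≤ E.L - r → f (r + s) 0 + e ≤ f' s 0) ∧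
      (E.IsKnown Y r → ∀ s : ℝ, 0 ≤ s → s ≤ E.L - r → f' s 0 = f (r + s) 0 + e) ∧
      (E.IsTrue Y (f r 0) → E.IsTrue (E.restr Y keep S') (f r 0)) ∧
      ∀ d S η : ℝ, E.Cap d S η f → (E.norm (E.restr Y keep S') r).Cap d S η f' := by
  obtain ⟨keep, S', e, f', h1, h2, h3, h4, h5, h6, h7, h8⟩ := kb_norm_ang E hE f hf Y r h hr hrL hY
  refine ⟨keep, S', e, f', h1, h2, h3, h4, h5, fun s hs hsL => h6 s 0 hs hsL le_rfl, h7, h8, fun d S η hc => ⟨h3, h4, hc.d_lt, ?_, ?_⟩⟩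
  · intro s hs
    have hs1 : s ≤ E.L - r := hs.2
    have e1 := h6 s 0 hs.1 hs1 le_rfl
    have e2 := hc.endp (r + s) ⟨by linarith [hs.1], by linarith⟩
    have e3 : f' (E.L - r) 0 - f' s 0 ≤ d * (E.L - r - s) := by
      rw [h5]
      have : d * (E.L - (r + s)) = d * (E.L - r - s) := by ring
      linarith
    exact e3
  · intro u hu huL
    have huL' : u ≤ η * (E.L - r) := huL
    have hη : 0 ≤ η := by
      by_contra hneg
      have : η * (E.L - r) < 0 := mul_neg_of_neg_of_pos (not_le.mp hneg) (by linarith)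
      linarith
    have e1 := hc.ang u hu (huL'.trans (mul_le_mul_of_nonneg_left (by linarith) hη))
    have e2 := h6 (E.L - r) u (by linarith) le_rfl hu.le
    have e3 : r + (E.L - r) = E.L := by ring
    rw [e3] at e2
    have e4 : f' (E.L - r) 0 + S * u ≤ f' (E.L - r) u := by
      rw [h5]
      linarith
    exact e4

/-- **L2.13, lifting of true terminal systems** through a known atlas with the terminal density equality -/
theorem kb_lift_true (E : KbEx v) (hE : E.Ok) (f f' : ℝ → ℝ → ℝ) (hf : E.Hom f) (Y : E.Sys) (r h e : ℝ) (hr : 0 ≤ r) (hrL : r < E.L)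
    (hY : E.IsAtlas Y r h) (he : E.ChExp Y (fun k c => ((Y k).ch c).J / ((Y k).nuC c).toReal) e)
    (hf' : (E.norm Y r).Hom f') (s : ℝ) (hs : 0 < s) (hsL : s ≤ E.L - r) (heq : f' s 0 = f (r + s) 0 + e)
    (Y' : (E.norm Y r).Sys) (h' : ℝ) (hY' : (E.norm Y r).IsTrueSys f' Y' s h') :
    E.IsTrueSys f (E.lift Y r Y') (r + s) (h + h') := by
  exact k2n_hub_lift_true E hE f f' hf Y r h e hr hrL hY he hf' s hs hsL heq Y' h' hY'

/-- lifting of systems and of label knowledge -/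
theorem kb_lift_atlas (E : KbEx v) (hE : E.Ok) (Y : E.Sys) (r h : ℝ) (hr : 0 ≤ r) (hrL : r < E.L) (hY : E.IsAtlas Y r h)
    (s : ℝ) (hs : 0 ≤ s) (hsL : s ≤ E.L - r) (Y' : (E.norm Y r).Sys) (h' : ℝ) (hY' : (E.norm Y r).IsAtlas Y' s h') :
    E.IsAtlas (E.lift Y r Y') (r + s) (h + h') := by
  exact k2n_hub_lift_atlas E hE Y r h hr hrL hY s hs hsL Y' h' hY'

/-- narrowness exponents add under composition -/
theorem kb_narrow_add (E : KbEx v) (Y : E.Sys) (r : ℝ) (Y' : (E.norm Y r).Sys) (l l' : ℝ) (h : E.Narrow Y l)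
    (h' : (E.norm Y r).Narrow Y' l') : E.Narrow (E.lift Y r Y') (l + l') := by
  exact k2n_hub_narrow_add E Y r Y' l l' h h'

/-! ## Operations on exact problems (S2aC helper22; used by Section 4.1) -/

/-- whole charts may be dropped: all per-chart properties survive -/
theorem kb_restr_keep (E : KbEx v) (Y : E.Sys) (keep : ∀ k, Set (Y k).C) (e s : ℝ) :
    (E.IsTrue Y e → E.IsTrue (E.restr Y keep fun _ _ => Set.univ) e) ∧ (E.IsSat Y e → E.IsSat (E.restr Y keep fun _ _ => Set.univ) e) ∧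
      (E.IsKnown Y s → E.IsKnown (E.restr Y keep fun _ _ => Set.univ) s) := by
  classical
  refine ⟨fun h τ hτ => ?_, fun h τ hτ => ?_, fun h τ hτ => ?_⟩
  · filter_upwards [h τ hτ] with k hk c
    have := hk c.1
    simpa [KbEx.restr, KbSys.restr, KbSys.mC, KbSys.q] using this
  · filter_upwards [h τ hτ] with k hk c
    have := hk c.1
    simpa [KbEx.restr, KbSys.restr, KbSys.mC, KbSys.q, KbSys.nuC] using this
  · filter_upwards [h τ hτ] with k hk
    obtain ⟨Lst, h1, h2, h3⟩ := hk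
    refine ⟨fun γ d o => (Lst γ d o).subtype (· ∈ keep k), ?_, ?_, ?_⟩
    · intro γ d o
      refine le_trans ?_ (h1 γ d o)
      have : ((Lst γ d o).subtype (· ∈ keep k)).card ≤ (Lst γ d o).card := by
        rw [Finset.card_subtype]
        exact Finset.card_filter_le _ _
      exact_mod_cast this
    · intro γ d c
      have e1 : {o | c ∈ (Lst γ d o).subtype (· ∈ keep k)} = {o | c.1 ∈ Lst γ d o} := by
        ext o
        exact Finset.mem_subtype
      exact e1 ▸ h2 γ d c.1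
    · intro c x hx
      exact Finset.mem_subtype.2 (h3 c.1 x hx.1)

/-- 02 l.322: 'other logarithmic quantities may be homogenised': a polynomially bounded chart quantity has a common exponent on a sub-collection of charts of dense mass -/
theorem kb_homog_ch (E : KbEx v) (hE : E.Ok) (Y : E.Sys) (r h : ℝ) (hY : E.IsSys Y r h) (x : ∀ k, (Y k).C → ℝ) (M : ℝ)
    (hx : ∀ᶠ k in uf, ∀ c, E.R.N k ^ (-M) ≤ x k c ∧ x k c ≤ E.R.N k ^ M) :
    ∃ (keep : ∀ k, Set (Y k).C) (e : ℝ), E.IsSys (E.restr Y keep fun _ _ => Set.univ) r h ∧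
      E.ChExp (E.restr Y keep fun _ _ => Set.univ) (fun k c => x k c.1) e := by
  exact k2n_hub_homog_ch E hE Y r h hY x M hx

/-- `J_c ≤ 2 |D_c|^j` -/
theorem kb_J_le (ch : KbChart v) : ch.J ≤ 2 * kbMn ch.D ^ v.j := by
  have h1 : ∀ i k, AbsoluteValue.abs (ch.D i k) ≤ kbMn ch.D := by
    intro i k
    have h2 : |ch.D i k| ≤ ∑ k', |ch.D i k'| := Finset.single_le_sum (f := fun k' => |ch.D i k'|) (fun _ _ => abs_nonneg _) (Finset.mem_univ k)
    have h3 : ∑ k', |ch.D i k'| ≤ ∑ i', ∑ k', |ch.D i' k'| :=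
      Finset.single_le_sum (f := fun i' => ∑ k', |ch.D i' k'|) (fun _ _ => Finset.sum_nonneg fun _ _ => abs_nonneg _) (Finset.mem_univ i)
    exact h2.trans h3
  have h4 := Matrix.det_le h1
  have h5 : (0 : ℝ) ≤ kbMn ch.D ^ v.j := pow_nonneg (Finset.sum_nonneg fun _ _ => Finset.sum_nonneg fun _ _ => abs_nonneg _) _
  have h6 : ((Nat.factorial v.j : ℕ) : ℝ) ≤ 2 := by cases v <;> simp [KbVer.j]
  simp only [Fintype.card_fin, nsmul_eq_mul] at h4
  calc ch.J = |ch.D.det| := rfl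
    _ ≤ (Nat.factorial v.j : ℝ) * kbMn ch.D ^ v.j := h4
    _ ≤ 2 * kbMn ch.D ^ v.j := mul_le_mul_of_nonneg_right h6 h5

/-- a sub-collection of charts of dense mass with a common narrowness exponent (asked by helper128); PROVED from `kb_homog_ch` -/
theorem kb_narrow_ex (E : KbEx v) (hE : E.Ok) (Y : E.Sys) (r h : ℝ) (hY : E.IsSys Y r h) :
    ∃ (keep : ∀ k, Set (Y k).C) (l : ℝ), E.IsSys (E.restr Y keep fun _ _ => Set.univ) r h ∧
      E.Narrow (E.restr Y keep fun _ _ => Set.univ) l := by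
  obtain ⟨M, hM⟩ := hY.1
  have hG := hY.2.1 1 one_pos
  have hx : ∀ᶠ k in uf, ∀ c, E.R.N k ^ (-(2 * |M| + 3)) ≤ (Y k).q ^ 2 / ((Y k).ch c).J ∧ (Y k).q ^ 2 / ((Y k).ch c).J ≤ E.R.N k ^ (2 * |M| + 3) := by
    filter_upwards [hM, hG] with k hk hg c
    set N := E.R.N k with hN
    have hN2 : (2 : ℝ) ≤ N := E.R.two_le k
    have hN1 : (1 : ℝ) ≤ N := by linarith
    have hN0 : (0 : ℝ) < N := by linarith
    have hq0 : 0 < (Y k).q := by unfold KbSys.q kbQ; positivity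
    have hq1 : (Y k).q ≤ 1 := by unfold KbSys.q kbQ; exact pow_le_one₀ (by norm_num) (by norm_num)
    have hMM : N ^ M ≤ N ^ |M| := Real.rpow_le_rpow_of_exponent_le hN1 (le_abs_self M)
    have hP : 0 < N ^ |M| := Real.rpow_pos_of_pos hN0 _
    have hJl : 1 ≤ N ^ |M| * ((Y k).ch c).J := by
      have := hk.2.J_low c
      have hJ0 : 0 ≤ ((Y k).ch c).J := abs_nonneg _
      exact this.trans (mul_le_mul_of_nonneg_right hMM hJ0)
    have hJ0 : 0 < ((Y k).ch c).J := by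
      by_contra hc
      have : ((Y k).ch c).J ≤ 0 := not_lt.mp hc
      nlinarith
    have hql : 1 ≤ N ^ |M| * (Y k).q := (hk.2.q_low).trans (mul_le_mul_of_nonneg_right hMM hq0.le)
    have hsz : kbMn ((Y k).ch c).D ≤ N := by
      have := hg.1.size c
      rw [Real.rpow_one] at this
      calc kbMn ((Y k).ch c).D ≤ (Y k).q * N := this
        _ ≤ 1 * N := mul_le_mul_of_nonneg_right hq1 hN0.le
        _ = N := one_mul _
    have hmn0 : 0 ≤ kbMn ((Y k).ch c).D := Finset.sum_nonneg fun _ _ => Finset.sum_nonneg fun _ _ => abs_nonneg _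
    have hJu : ((Y k).ch c).J ≤ N ^ (3 : ℝ) := by
      have h1 := kb_J_le ((Y k).ch c)
      have h2 : kbMn ((Y k).ch c).D ^ v.j ≤ N ^ 2 := by
        calc kbMn ((Y k).ch c).D ^ v.j ≤ N ^ v.j := pow_le_pow_left₀ hmn0 hsz _
          _ ≤ N ^ 2 := pow_le_pow_right₀ hN1 (by cases v <;> simp [KbVer.j])
      have h3 : N ^ (3 : ℝ) = N ^ 3 := by norm_cast
      rw [h3]
      nlinarith [pow_pos hN0 2]
    have hsplit : N ^ (2 * |M| + 3) = N ^ |M| * N ^ |M| * N ^ (3 : ℝ) := by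
      rw [← Real.rpow_add hN0, ← Real.rpow_add hN0]; ring_nf
    have h3p : 0 < N ^ (3 : ℝ) := Real.rpow_pos_of_pos hN0 _
    have h31 : 1 ≤ N ^ (3 : ℝ) := Real.one_le_rpow hN1 (by norm_num)
    have hP1 : 1 ≤ N ^ |M| := Real.one_le_rpow hN1 (abs_nonneg _)
    constructor
    · rw [Real.rpow_neg hN0.le, hsplit, le_div_iff₀ hJ0, inv_mul_le_iff₀ (by positivity)]
      have h5 : 1 ≤ (N ^ |M| * (Y k).q) ^ 2 := one_le_pow₀ hql
      calc ((Y k).ch c).J ≤ N ^ (3 : ℝ) := hJu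
        _ = 1 * N ^ (3 : ℝ) := (one_mul _).symm
        _ ≤ (N ^ |M| * (Y k).q) ^ 2 * N ^ (3 : ℝ) := mul_le_mul_of_nonneg_right h5 h3p.le
        _ = N ^ |M| * N ^ |M| * N ^ (3 : ℝ) * (Y k).q ^ 2 := by ring
    · rw [div_le_iff₀ hJ0, hsplit]
      have h6 : (Y k).q ^ 2 ≤ 1 := pow_le_one₀ hq0.le hq1
      calc (Y k).q ^ 2 ≤ 1 := h6
        _ ≤ N ^ |M| * ((Y k).ch c).J := hJl
        _ ≤ N ^ |M| * N ^ (3 : ℝ) * (N ^ |M| * ((Y k).ch c).J) := by
            have : 1 ≤ N ^ |M| * N ^ (3 : ℝ) := by nlinarith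
            nlinarith
        _ = N ^ |M| * N ^ |M| * N ^ (3 : ℝ) * ((Y k).ch c).J := by ring
  obtain ⟨keep, e, h1, h2⟩ := kb_homog_ch E hE Y r h hY (fun k c => (Y k).q ^ 2 / ((Y k).ch c).J) _ hx
  refine ⟨keep, -e, h1, ?_⟩
  unfold KbEx.Narrow
  rw [neg_neg]
  exact h2

/-- coarsening to the end point `r` keeps data and profile; only the slope cap at `r` has to be checked (04 l.55-60) -/
theorem kb_coarsen_cap (E : KbEx v) (d S η : ℝ) (f : ℝ → ℝ → ℝ) (h : E.Cap d S η f) (r d' : ℝ) (hr : 0 < r) (hrL : r ≤ E.L) (hd' : d' < 1)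
    (hs : ∀ x ∈ Set.Icc 0 r, f r 0 - f x 0 ≤ d' * (r - x)) : (E.coarsen r).Cap d' S η f where
  ok := ⟨hr, h.ok.2.1, h.ok.2.2⟩
  hom := ⟨fun s hs => h.hom.pure s ⟨hs.1, hs.2.trans hrL⟩, fun s hs u hu => h.hom.joint s ⟨hs.1, hs.2.trans hrL⟩ u hu⟩
  d_lt := hd'
  endp := hs
  ang := by
    intro u hu hur
    have hur' : u ≤ η * r := hur
    have hη : 0 < η := by
      by_contra hη
      rw [not_lt] at hη
      nlinarith
    exact kb_coarse E d S η f h r u hr.le hrL hu (hur'.trans (mul_le_mul_of_nonneg_left hrL hη.le))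

/-- a system of the coarsening is a system of `E` (same data) -/
theorem kb_coarsen_sys (E : KbEx v) (r : ℝ) (Y : E.Sys) (s h : ℝ) : (E.coarsen r).IsSys Y s h ↔ E.IsSys Y s h := Iff.rfl

/-- change of units `N₀ ↦ N₀^c` (04 l.24-29) -/
theorem kb_rebase_cap (E : KbEx v) (d S η : ℝ) (f : ℝ → ℝ → ℝ) (h : E.Cap d S η f) (c : ℝ) (hc : 0 < c) :
    (E.rebase c hc).Cap d S η fun r u => f (c * r) (c * u) / c where
  ok := (kp4_rb_ok E c hc).2 h.ok
  hom := kp4_rb_hom E c hc f h.hom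
  d_lt := h.d_lt
  endp := by
    intro r hr
    have e : c * (E.rebase c hc).L = E.L := by
      show c * (E.L / c) = E.L
      field_simp
    have h2 : c * r ≤ E.L := by
      rw [← e]
      exact mul_le_mul_of_nonneg_left hr.2 hc.le
    have h3 := h.endp (c * r) ⟨mul_nonneg hc.le hr.1, h2⟩
    show f (c * (E.rebase c hc).L) (c * 0) / c - f (c * r) (c * 0) / c ≤ d * ((E.rebase c hc).L - r)
    rw [e, mul_zero, ← sub_div, div_le_iff₀ hc]
    calc f E.L 0 - f (c * r) 0 ≤ d * (E.L - c * r) := h3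
      _ = d * ((E.rebase c hc).L - r) * c := by rw [← e]; ring
  ang := by
    intro u hu huL
    have e : c * (E.rebase c hc).L = E.L := by
      show c * (E.L / c) = E.L
      field_simp
    have h2 : c * u ≤ η * E.L := by
      rw [← e]
      calc c * u ≤ c * (η * (E.rebase c hc).L) := mul_le_mul_of_nonneg_left huL hc.le
        _ = η * (c * (E.rebase c hc).L) := by ring
    have h3 := h.ang (c * u) (mul_pos hc hu) h2
    show f (c * (E.rebase c hc).L) (c * 0) / c + S * u ≤ f (c * (E.rebase c hc).L) (c * u) / c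
    rw [e, mul_zero, div_add' _ _ _ hc.ne', div_le_div_iff_of_pos_right hc]
    linarith

theorem kb_rebase_hor (E : KbEx v) (hE : E.Ok) (f : ℝ → ℝ → ℝ) (hf : E.Hom f) (c : ℝ) (hc : 0 < c) :
    (E.rebase c hc).Hor (fun r u => f (c * r) (c * u) / c) = E.Hor f / c :=
  kp4_rb_hor E c hc f

/-- the horizon is an exclusion at a FIXED power: below `H(E)`, for every fixed complexity `M`, no system with slack `N^τ` exists eventually (the infimum itself need not be attained: `M` is not uniform) -/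
theorem kb_hor_exclusion (E : KbEx v) (hE : E.Ok) (f : ℝ → ℝ → ℝ) (hf : E.Hom f) (h M : ℝ) (hh : h < E.Hor f) :
    ∃ τ : ℝ, 0 < τ ∧ ∀ᶠ k in uf, ¬ ∃ Y : KbSys (E.P k), Y.WF ∧ Y.Tmp (E.R.N k ^ M) ∧ Y.Geo (E.R.N k ^ τ) (E.a E.L k) ∧ Y.Big (E.R.N k ^ τ) ∧
      Y.Tru (E.R.N k ^ τ) (E.R.N k ^ (-(f E.L 0))) ∧ E.R.N k ^ (-h) ≤ Y.q := by
  exact k2n_hub_hor_exclusion E hE f hf h M hh

/-! ## S2b (helper264): the two bounds for the horizon -/

/-- **P2.16 initial horizon bound**: a true terminal system of cost `L` exists -/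
theorem kb_horizon_le (E : KbEx v) (hE : E.Ok) (f : ℝ → ℝ → ℝ) (hf : E.Hom f) : ∃ Y : E.Sys, E.IsTrueSys f Y E.L E.L :=
  k2b_hub_horizon_le E hE f hf

/-- **T2.17 reduction to a bad weighted problem** (input: the finite selection of unit GLUE) -/
theorem kb_reduction (σ C : ℝ) (hσ : 0 < σ) (h : ∀ k0 : ℕ, ∃ k, k0 ≤ k ∧ GluBad σ C k) :
    ∃ d S η : ℝ, 0 < S ∧ 0 < η ∧ KbBad KbVer.two S η d :=
  k2b_hub_reduction σ C hσ h

end

end Claimed.Agent.R252
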