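import Claimed.Agent.R252.Base.Seq

/-!
# ROW 252 (S0492), unit BASE (architect helper103), file 5b: the definitions used in the hub statements (`Hub2.lean`).      Definitions only.
The owners of the hubs import THIS file (not `Hub2`), so that `Hub2` can later import their proofs.
-/

set_option autoImplicit false

namespace Claimed.Agent.R252

open MeasureTheory Filter Topology
open Claimed.Agent.R255 (uf)
open scoped ENNReal BigOperators

noncomputable section

variable {v : KbVer}

namespace KbEx

variable (E : KbEx v)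

/-- a permitted further selection: measurable, mass at least inverse subpower -/
def Dense (S : E.Sel) : Prop :=
  (∀ᶠ k in uf, ∀ γ, MeasurableSet (S k γ)) ∧ ∀ τ : ℝ, 0 < τ → ∀ᶠ k in uf, 1 ≤ ENNReal.ofReal (E.R.N k ^ τ) * (E.P k).mass (S k)

/-- measurable sequence of labels with countably many values -/
def LabOk {D : Type} (ℓ : E.Lab D) : Prop := Countable D ∧ ∀ᶠ k in uf, (E.P k).LabMeas (ℓ k)

/-- restriction of a sequence of systems to sub-collections of charts and smaller selections -/
def restr (Y : E.Sys) (keep : ∀ k, Set (Y k).C) (S' : ∀ k, (Y k).C → Set ((E.P k).Lam × ℝ)) : E.Sys :=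
  fun k => (Y k).restr (keep k) (S' k)

/-- weighted selected mass of the charts with a property -/
def chMass (Y : E.Sys) (p : ∀ k, (Y k).C → Prop) : ℕ → ℝ := by
  classical
  exact fun k => (∑ c, if p k c then (E.P k).om ((Y k).wd c) * (Y k).mC c else 0).toReal

end KbEx

/-- monotonicity and Lipschitz bounds of a joint profile (L2.5) -/
structure KbProfile (L : ℝ) (j : ℕ) (f : ℝ → ℝ → ℝ) : Prop where
  r_mono : ∀ r r' u : ℝ, 0 ≤ r → r ≤ r' → r' ≤ L → 0 ≤ u → f r u ≤ f r' u
  r_lip : ∀ r r' u : ℝ, 0 ≤ r → r ≤ r' → r' ≤ L → 0 ≤ u → f r' u - f r u ≤ r' - r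
  u_mono : ∀ r u u' : ℝ, 0 ≤ r → r ≤ L → 0 ≤ u → u ≤ u' → f r u ≤ f r u'
  u_lip : ∀ r u u' : ℝ, 0 ≤ r → r ≤ L → 0 ≤ u → u ≤ u' → f r u' - f r u ≤ j * (u' - u)

/-- forces the on-demand equation lemmas of ALL definitions of this file to live HERE (RULES.md, rule 6: copies in two consumer files collide in the joint check) -/
theorem kb_hubdefs_eqns_cite : True := by
  have := @KbEx.Dense.eq_1
  have := @KbEx.LabOk.eq_1
  have := @KbEx.chMass.eq_1
  have := @KbEx.restr.eq_1
  trivial

end

end Claimed.Agent.R252
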