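import Claimed.Agent.R255.Base.Ulim

/-!
# ROW 252 (S0492), unit BASE (post BP-252-T3-ARCH, chief architect helper103), file 1: THE ASYMPTOTIC LANGUAGE.      CONTRACT file: the `sorry`s are the leaves L-252-KB-LANG-*.

DECISION (18:44Z): base language (C).
* All mathematical OBJECTS live at ONE scale (files `Pb`, `Sys`, `Norm`): data structures without proofs + predicates with an explicit slack `K ≥ 1`.
* An exact problem of the paper (02 Def 2.1) is a SEQUENCE of one-scale objects, read along the FIXED ultrafilter `R255.uf` on `ℕ`.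
  There are NO subsequences: every bounded exponent has a limit `R255.ulim`; "eventually" is `∀ᶠ k in uf`; a property that does not hold eventually FAILS eventually (`R255.uf_em`).
* `K₀` "subpower, may be increased from line to line" = `KbSubP`;   `A ≲ B` = `KbLe`  (transitive, no bookkeeping);   `A ∼_log B` = `KbSim`.
* "power small" = `KbPow`;  "negligible relative to" = ratio tends to `0` (`KbNeg`).
* "sufficiently slowly" = ONE lemma, `kb_slow` (from `R255.ulim_diag`).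
* A one-scale core `∀ N K, hyp K → concl (C * K ^ C)` is used at the sequence level through `kb_subp_pow`.
-/

set_option autoImplicit false

namespace Claimed.Agent.R252

open Filter Topology
open Claimed.Agent.R255 (uf ulim UBdd)

/-- a resolution sequence `N₀ → ∞` (along the ultrafilter) -/
structure KbRes where
  N : ℕ → ℝ
  two_le : ∀ k, 2 ≤ N k
  lim : Tendsto N uf atTop

/-- subpower factor `K₀ ≥ 1` -/
def KbSubP (R : KbRes) (K : ℕ → ℝ) : Prop := ∀ τ : ℝ, 0 < τ → ∀ᶠ k in uf, 1 ≤ K k ∧ K k ≤ R.N k ^ τ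

/-- `x ≲ y` : `x ≤ N^τ y` eventually, for every fixed `τ > 0` -/
def KbLe (R : KbRes) (x y : ℕ → ℝ) : Prop := ∀ τ : ℝ, 0 < τ → ∀ᶠ k in uf, x k ≤ R.N k ^ τ * y k

/-- `x ∼_log y` -/
def KbSim (R : KbRes) (x y : ℕ → ℝ) : Prop := KbLe R x y ∧ KbLe R y x

/-- power small -/
def KbPow (R : KbRes) (x : ℕ → ℝ) : Prop := ∃ c : ℝ, 0 < c ∧ ∀ᶠ k in uf, x k ≤ R.N k ^ (-c)

/-- `x` is negligible relative to `y` -/
def KbNeg (x y : ℕ → ℝ) : Prop := ∀ ε : ℝ, 0 < ε → ∀ᶠ k in uf, x k ≤ ε * y k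

/-- `x = N^{-e + o(1)}` -/
def KbExp (R : KbRes) (x : ℕ → ℝ) (e : ℝ) : Prop :=
  ∀ τ : ℝ, 0 < τ → ∀ᶠ k in uf, R.N k ^ (-e - τ) ≤ x k ∧ x k ≤ R.N k ^ (-e + τ)

theorem kb_res_pos (R : KbRes) (k : ℕ) : 0 < R.N k := by
  have := R.two_le k
  linarith

theorem kb_res_one_le (R : KbRes) (k : ℕ) : 1 ≤ R.N k := by
  have := R.two_le k
  linarith

theorem kb_rpow_tendsto (R : KbRes) {τ : ℝ} (hτ : 0 < τ) : Tendsto (fun k => R.N k ^ τ) uf atTop :=
  (tendsto_rpow_atTop hτ).comp R.lim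

theorem kb_rpow_half (R : KbRes) (τ : ℝ) (k : ℕ) : R.N k ^ (τ / 2) * R.N k ^ (τ / 2) = R.N k ^ τ := by
  rw [← Real.rpow_add (kb_res_pos R k)]
  congr 1
  ring

/-- the exponent of a sequence: `x = N^{-kbExpo}` -/
noncomputable def kbExpo (R : KbRes) (x : ℕ → ℝ) : ℝ := ulim fun k => - Real.logb (R.N k) (x k)

/-! ## Leaves L-252-KB-LANG-1 : subpower factors -/

theorem kb_subp_one (R : KbRes) : KbSubP R fun _ => 1 := by
  intro τ hτ
  exact Eventually.of_forall fun k => ⟨le_rfl, Real.one_le_rpow (kb_res_one_le R k) hτ.le⟩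

theorem kb_subp_const (R : KbRes) {C : ℝ} (hC : 1 ≤ C) : KbSubP R fun _ => C := by
  intro τ hτ
  filter_upwards [(kb_rpow_tendsto R hτ).eventually_ge_atTop C] with k hk
  exact ⟨hC, hk⟩

theorem kb_subp_mul (R : KbRes) {K K' : ℕ → ℝ} (h : KbSubP R K) (h' : KbSubP R K') : KbSubP R fun k => K k * K' k := by
  intro τ hτ
  filter_upwards [h (τ / 2) (by linarith), h' (τ / 2) (by linarith)] with k hk hk'
  refine ⟨by nlinarith [hk.1, hk'.1], ?_⟩
  rw [← kb_rpow_half R τ k]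
  exact mul_le_mul hk.2 hk'.2 (by linarith [hk'.1]) (by linarith [hk.1, hk.2])

theorem kb_subp_max (R : KbRes) {K K' : ℕ → ℝ} (h : KbSubP R K) (h' : KbSubP R K') : KbSubP R fun k => max (K k) (K' k) := by
  intro τ hτ
  filter_upwards [h τ hτ, h' τ hτ] with k hk hk'
  exact ⟨hk.1.trans (le_max_left _ _), max_le hk.2 hk'.2⟩

/-- the transfer of the conclusion `C * K ^ C` of a one-scale core -/
theorem kb_subp_pow (R : KbRes) {K : ℕ → ℝ} (h : KbSubP R K) {C : ℝ} (hC : 1 ≤ C) : KbSubP R fun k => C * K k ^ C := by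
  intro τ hτ
  have hC0 : 0 < C := by linarith
  filter_upwards [h (τ / 2 / C) (by positivity), (kb_rpow_tendsto R (half_pos hτ)).eventually_ge_atTop C] with k hk hk'
  have h1 : 1 ≤ K k ^ C := Real.one_le_rpow hk.1 hC0.le
  refine ⟨by nlinarith, ?_⟩
  rw [← kb_rpow_half R τ k]
  have h2 : K k ^ C ≤ R.N k ^ (τ / 2) := by
    calc K k ^ C ≤ (R.N k ^ (τ / 2 / C)) ^ C := Real.rpow_le_rpow (by linarith [hk.1]) hk.2 hC0.le
      _ = R.N k ^ (τ / 2) := by
        rw [← Real.rpow_mul (kb_res_pos R k).le]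
        congr 1
        field_simp
  exact mul_le_mul hk' h2 (by linarith) (by linarith)

theorem kb_subp_log (R : KbRes) : KbSubP R fun k => 1 + Real.log (R.N k) := by
  intro τ hτ
  filter_upwards [(kb_rpow_tendsto R (half_pos hτ)).eventually_ge_atTop (1 + 2 / τ)] with k hk
  have h0 : 0 ≤ Real.log (R.N k) := Real.log_nonneg (kb_res_one_le R k)
  refine ⟨by linarith, ?_⟩
  have h1 : Real.log (R.N k) ≤ R.N k ^ (τ / 2) / (τ / 2) := Real.log_le_rpow_div (kb_res_pos R k).le (half_pos hτ)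
  have h2 : R.N k ^ (τ / 2) / (τ / 2) = R.N k ^ (τ / 2) * (2 / τ) := by
    field_simp
  rw [h2] at h1
  rw [← kb_rpow_half R τ k]
  have h3 : 0 < 2 / τ := by positivity
  set y := R.N k ^ (τ / 2)
  nlinarith

theorem kb_pow_lim (R : KbRes) (L : ℝ) (hL : 0 < L) : Tendsto (fun k => max 2 (R.N k ^ L)) uf atTop := by
  exact tendsto_atTop_mono (fun k => le_max_right _ _) (kb_rpow_tendsto R hL)

theorem kb_subp_mono (R : KbRes) {K K' : ℕ → ℝ} (h : KbSubP R K) (h1 : ∀ᶠ k in uf, 1 ≤ K' k ∧ K' k ≤ K k) : KbSubP R K' := by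
  intro τ hτ
  filter_upwards [h τ hτ, h1] with k hk hk'
  exact ⟨hk'.1, hk'.2.trans hk.2⟩

/-! ## Leaves L-252-KB-LANG-2 : "slowly" -/

theorem kb_slow_tend {κ : ℕ → ℕ} (hκ : Tendsto κ uf atTop) : Tendsto (fun k => 1 / ((κ k : ℝ) + 1)) uf (𝓝 0) :=
  (tendsto_one_div_add_atTop_nhds_zero_nat (𝕜 := ℝ)).comp hκ

theorem kb_slow_subp (R : KbRes) {τ : ℕ → ℝ} (h0 : ∀ k, 0 < τ k) (ht : Tendsto τ uf (𝓝 0)) : KbSubP R fun k => R.N k ^ τ k := by
  intro τ0 hτ0
  filter_upwards [ht.eventually (eventually_le_nhds hτ0)] with k hk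
  have h1 : (1 : ℝ) ≤ R.N k := by linarith [R.two_le k]
  exact ⟨Real.one_le_rpow h1 (h0 k).le, Real.rpow_le_rpow_of_exponent_le h1 hk⟩

/-- **the slow diagonal.**  If `p k τ` holds eventually for every fixed tolerance `τ > 0`, there are tolerances `τ k → 0` with `p k (τ k)` eventually, and `N^{τ k}` is subpower. -/
theorem kb_slow (R : KbRes) (p : ℕ → ℝ → Prop) (h : ∀ τ : ℝ, 0 < τ → ∀ᶠ k in uf, p k τ) :
    ∃ τ : ℕ → ℝ, (∀ k, 0 < τ k) ∧ Tendsto τ uf (𝓝 0) ∧ (KbSubP R fun k => R.N k ^ τ k) ∧ ∀ᶠ k in uf, p k (τ k) := by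
  obtain ⟨κ, hκ, hg⟩ := Claimed.Agent.R255.ulim_diag (fun m k => p k (1 / ((m : ℝ) + 1))) (fun m => h _ (by positivity))
  exact ⟨fun k => 1 / ((κ k : ℝ) + 1), fun k => by positivity, kb_slow_tend hκ,
    kb_slow_subp R (fun k => by positivity) (kb_slow_tend hκ), hg⟩

/-- the same with growing finite parts of a countable list of requirements -/
theorem kb_slow_list (R : KbRes) (p : ℕ → ℕ → ℝ → Prop) (h : ∀ (m : ℕ) (τ : ℝ), 0 < τ → ∀ᶠ k in uf, p k m τ) :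
    ∃ (τ : ℕ → ℝ) (m : ℕ → ℕ), (∀ k, 0 < τ k) ∧ Tendsto τ uf (𝓝 0) ∧ Tendsto m uf atTop ∧ (KbSubP R fun k => R.N k ^ τ k) ∧
      (KbSubP R fun k => (1 / τ k + 1) ^ (m k)) ∧ ∀ᶠ k in uf, ∀ i ≤ m k, p k i (τ k) := by
  have hgood : ∀ M : ℕ, ∀ᶠ k in uf,
      (∀ i ≤ M, p k i (1 / ((M : ℝ) + 1))) ∧ ((M : ℝ) + 2) ^ M ≤ R.N k ^ (1 / ((M : ℝ) + 1)) := by
    intro M
    have h1 : ∀ᶠ k in uf, ∀ i ∈ Finset.range (M + 1), p k i (1 / ((M : ℝ) + 1)) :=
      (eventually_all_finset _).2 fun i _ => h i _ (by positivity)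
    have h2 : ∀ᶠ k in uf, (((M : ℝ) + 2) ^ M) ^ ((M : ℝ) + 1) ≤ R.N k := R.lim.eventually_ge_atTop _
    filter_upwards [h1, h2] with k hk1 hk2
    refine ⟨fun i hi => hk1 i (Finset.mem_range.2 (Nat.lt_succ_of_le hi)), ?_⟩
    have hx : (0 : ℝ) ≤ ((M : ℝ) + 2) ^ M := by positivity
    calc ((M : ℝ) + 2) ^ M = ((((M : ℝ) + 2) ^ M) ^ ((M : ℝ) + 1)) ^ (1 / ((M : ℝ) + 1)) := by
          rw [← Real.rpow_mul hx, mul_one_div_cancel (by positivity), Real.rpow_one]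
      _ ≤ _ := Real.rpow_le_rpow (by positivity) hk2 (by positivity)
  obtain ⟨κ, hκ, hg⟩ := Claimed.Agent.R255.ulim_diag
    (fun M k => (∀ i ≤ M, p k i (1 / ((M : ℝ) + 1))) ∧ ((M : ℝ) + 2) ^ M ≤ R.N k ^ (1 / ((M : ℝ) + 1))) hgood
  have hsub : KbSubP R fun k => R.N k ^ (1 / ((κ k : ℝ) + 1)) :=
    kb_slow_subp R (fun k => by positivity) (kb_slow_tend hκ)
  refine ⟨fun k => 1 / ((κ k : ℝ) + 1), κ, fun k => by positivity, kb_slow_tend hκ, hκ, hsub, ?_, ?_⟩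
  · intro τ0 hτ0
    filter_upwards [hg, hsub τ0 hτ0] with k hk1 hk2
    have e : 1 / (1 / ((κ k : ℝ) + 1)) + 1 = (κ k : ℝ) + 2 := by
      rw [one_div_one_div]; ring
    simp only [e]
    have h0 : (0 : ℝ) ≤ κ k := Nat.cast_nonneg _
    exact ⟨one_le_pow₀ (by linarith), hk1.2.trans hk2.2⟩
  · filter_upwards [hg] with k hk using hk.1

/-- `x ≲ y` iff `x ≤ K y` with ONE subpower factor -/
theorem kb_le_iff (R : KbRes) {x y : ℕ → ℝ} (hy : ∀ᶠ k in uf, 0 ≤ y k) :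
    KbLe R x y ↔ ∃ K, KbSubP R K ∧ ∀ᶠ k in uf, x k ≤ K k * y k := by
  constructor
  · intro h
    obtain ⟨τ, -, -, hs, hp⟩ := kb_slow R (fun k τ => x k ≤ R.N k ^ τ * y k) h
    exact ⟨_, hs, hp⟩
  · rintro ⟨K, hK, hx⟩ τ hτ
    filter_upwards [hK τ hτ, hx, hy] with k h1 h2 h3
    exact h2.trans (mul_le_mul_of_nonneg_right h1.2 h3)

/-- a property with a subpower slack, monotone in the slack: "for every `τ`" gives "for one subpower `K`" -/
theorem kb_subp_of_forall (R : KbRes) (p : ℕ → ℝ → Prop) (hm : ∀ k a b, a ≤ b → p k a → p k b)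
    (h : ∀ τ : ℝ, 0 < τ → ∀ᶠ k in uf, p k (R.N k ^ τ)) : ∃ K, KbSubP R K ∧ ∀ᶠ k in uf, p k (K k) := by
  have _ := hm
  obtain ⟨τ, -, -, hs, hp⟩ := kb_slow R (fun k τ => p k (R.N k ^ τ)) h
  exact ⟨_, hs, hp⟩

/-- **exclusion** (the use of the ultrafilter): if NO subpower slack works, then some fixed power `N^τ` fails eventually -/
theorem kb_exclusion (R : KbRes) (p : ℕ → ℝ → Prop) (hm : ∀ k a b, a ≤ b → p k a → p k b)
    (h : ¬ ∃ K, KbSubP R K ∧ ∀ᶠ k in uf, p k (K k)) : ∃ τ : ℝ, 0 < τ ∧ ∀ᶠ k in uf, ¬ p k (R.N k ^ τ) := by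
  by_contra hcon
  exact h (kb_subp_of_forall R p hm fun τ hτ =>
    (Claimed.Agent.R255.uf_em fun k => p k (R.N k ^ τ)).resolve_right fun hh => hcon ⟨τ, hτ, hh⟩)

/-! ## Leaves L-252-KB-LANG-3 : the relations -/

theorem kb_L3_pos (R : KbRes) (k : ℕ) : 0 < R.N k := lt_of_lt_of_le two_pos (R.two_le k)

theorem kb_L3_one_lt (R : KbRes) (k : ℕ) : 1 < R.N k := lt_of_lt_of_le one_lt_two (R.two_le k)

theorem kb_L3_rpow_pos (R : KbRes) (k : ℕ) (t : ℝ) : 0 < R.N k ^ t := Real.rpow_pos_of_pos (kb_L3_pos R k) t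

theorem kb_L3_one_le_rpow (R : KbRes) (k : ℕ) {t : ℝ} (ht : 0 ≤ t) : 1 ≤ R.N k ^ t :=
  Real.one_le_rpow (kb_L3_one_lt R k).le ht

theorem kb_L3_rpow_le_iff (R : KbRes) (k : ℕ) {s t : ℝ} : R.N k ^ s ≤ R.N k ^ t ↔ s ≤ t :=
  Real.rpow_le_rpow_left_iff (kb_L3_one_lt R k)

/-- `N^t → ∞` for `t > 0` -/
theorem kb_L3_rpow_tendsto (R : KbRes) {t : ℝ} (ht : 0 < t) : Tendsto (fun k => R.N k ^ t) uf atTop :=
  (tendsto_rpow_atTop ht).comp R.lim

/-- `N^{-t} ≤ ε` eventually -/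
theorem kb_L3_rpow_neg_le (R : KbRes) {t ε : ℝ} (ht : 0 < t) (hε : 0 < ε) : ∀ᶠ k in uf, R.N k ^ (-t) ≤ ε := by
  filter_upwards [(kb_L3_rpow_tendsto R ht).eventually_ge_atTop ε⁻¹] with k hk
  rw [Real.rpow_neg (kb_L3_pos R k).le]
  exact inv_le_of_inv_le₀ hε hk

theorem kb_le_refl (R : KbRes) {x : ℕ → ℝ} (hx : ∀ᶠ k in uf, 0 ≤ x k) : KbLe R x x := by
  intro τ hτ
  filter_upwards [hx] with k hk
  exact le_mul_of_one_le_left hk (kb_L3_one_le_rpow R k hτ.le)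

theorem kb_le_trans (R : KbRes) {x y z : ℕ → ℝ} (h : KbLe R x y) (h' : KbLe R y z) : KbLe R x z := by
  intro τ hτ
  filter_upwards [h (τ / 2) (by positivity), h' (τ / 2) (by positivity)] with k h1 h2
  calc x k ≤ R.N k ^ (τ / 2) * y k := h1
    _ ≤ R.N k ^ (τ / 2) * (R.N k ^ (τ / 2) * z k) := mul_le_mul_of_nonneg_left h2 (kb_L3_rpow_pos R k _).le
    _ = R.N k ^ τ * z k := by
        rw [← mul_assoc, ← Real.rpow_add (kb_L3_pos R k), add_halves]

theorem kb_le_mul (R : KbRes) {x y x' y' : ℕ → ℝ} (hx : ∀ᶠ k in uf, 0 ≤ x k) (hx' : ∀ᶠ k in uf, 0 ≤ x' k)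
    (h : KbLe R x y) (h' : KbLe R x' y') : KbLe R (fun k => x k * x' k) fun k => y k * y' k := by
  intro τ hτ
  filter_upwards [hx, hx', h (τ / 2) (by positivity), h' (τ / 2) (by positivity)] with k h0 h0' h1 h2
  calc x k * x' k ≤ (R.N k ^ (τ / 2) * y k) * (R.N k ^ (τ / 2) * y' k) := mul_le_mul h1 h2 h0' (h0.trans h1)
    _ = (R.N k ^ (τ / 2) * R.N k ^ (τ / 2)) * (y k * y' k) := by ring
    _ = R.N k ^ τ * (y k * y' k) := by rw [← Real.rpow_add (kb_L3_pos R k), add_halves]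

theorem kb_le_add (R : KbRes) {x y x' y' : ℕ → ℝ} (h : KbLe R x y) (h' : KbLe R x' y') :
    KbLe R (fun k => x k + x' k) fun k => y k + y' k := by
  intro τ hτ
  filter_upwards [h τ hτ, h' τ hτ] with k h1 h2
  rw [mul_add]
  exact add_le_add h1 h2

theorem kb_le_of_le (R : KbRes) {x y : ℕ → ℝ} (hy : ∀ᶠ k in uf, 0 ≤ y k) (h : ∀ᶠ k in uf, x k ≤ y k) : KbLe R x y := by
  intro τ hτ
  filter_upwards [hy, h] with k h0 h1
  exact h1.trans (le_mul_of_one_le_left h0 (kb_L3_one_le_rpow R k hτ.le))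

theorem kb_pow_add (R : KbRes) {x y : ℕ → ℝ} (h : KbPow R x) (h' : KbPow R y) : KbPow R fun k => x k + y k := by
  obtain ⟨c, hc, h1⟩ := h
  obtain ⟨c', hc', h2⟩ := h'
  have hm : 0 < min c c' := lt_min hc hc'
  refine ⟨min c c' / 2, by positivity, ?_⟩
  filter_upwards [h1, h2, kb_L3_rpow_neg_le R (t := min c c' / 2) (ε := 1 / 2) (by positivity) (by norm_num)] with k a1 a2 a3
  have b1 : x k ≤ R.N k ^ (-(min c c')) := a1.trans ((kb_L3_rpow_le_iff R k).2 (neg_le_neg (min_le_left _ _)))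
  have b2 : y k ≤ R.N k ^ (-(min c c')) := a2.trans ((kb_L3_rpow_le_iff R k).2 (neg_le_neg (min_le_right _ _)))
  have e : R.N k ^ (-(min c c')) = R.N k ^ (-(min c c' / 2)) * R.N k ^ (-(min c c' / 2)) := by
    rw [← Real.rpow_add (kb_L3_pos R k)]
    congr 1
    ring
  have p := kb_L3_rpow_pos R k (-(min c c' / 2))
  have b3 : R.N k ^ (-(min c c')) ≤ R.N k ^ (-(min c c' / 2)) * (1 / 2) := by
    rw [e]
    exact mul_le_mul_of_nonneg_left a3 p.le
  linarith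

theorem kb_pow_of_le (R : KbRes) {x y : ℕ → ℝ} (h : KbLe R x y) (h' : KbPow R y) : KbPow R x := by
  obtain ⟨c, hc, h2⟩ := h'
  refine ⟨c / 2, by positivity, ?_⟩
  filter_upwards [h (c / 2) (by positivity), h2] with k a1 a2
  calc x k ≤ R.N k ^ (c / 2) * y k := a1
    _ ≤ R.N k ^ (c / 2) * R.N k ^ (-c) := mul_le_mul_of_nonneg_left a2 (kb_L3_rpow_pos R k _).le
    _ = R.N k ^ (-(c / 2)) := by
        rw [← Real.rpow_add (kb_L3_pos R k)]
        congr 1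
        ring

/-- power small is negligible relative to inverse subpower -/
theorem kb_pow_neg (R : KbRes) {x K : ℕ → ℝ} (h : KbPow R x) (hK : KbSubP R K) : KbNeg x fun k => 1 / K k := by
  obtain ⟨c, hc, h1⟩ := h
  intro ε hε
  filter_upwards [h1, hK (c / 2) (by positivity), kb_L3_rpow_neg_le R (t := c / 2) (by positivity) hε] with k a1 a2 a3
  have hK0 : 0 < K k := lt_of_lt_of_le one_pos a2.1
  have p := kb_L3_rpow_pos R k (c / 2)
  have b1 : R.N k ^ (-(c / 2)) ≤ 1 / K k := by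
    rw [Real.rpow_neg (kb_L3_pos R k).le, ← one_div]
    exact one_div_le_one_div_of_le hK0 a2.2
  calc x k ≤ R.N k ^ (-c) := a1
    _ = R.N k ^ (-(c / 2)) * R.N k ^ (-(c / 2)) := by
        rw [← Real.rpow_add (kb_L3_pos R k)]
        congr 1
        ring
    _ ≤ ε * (1 / K k) := mul_le_mul a3 b1 (kb_L3_rpow_pos R k _).le hε.le

/-- `N^s ≤ x ↔ s ≤ log_N x` -/
theorem kb_L3_rpow_le_iff_logb (R : KbRes) (k : ℕ) {s x : ℝ} (hx : 0 < x) : R.N k ^ s ≤ x ↔ s ≤ Real.logb (R.N k) x :=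
  (Real.le_logb_iff_rpow_le (kb_L3_one_lt R k) hx).symm

theorem kb_L3_le_rpow_iff_logb (R : KbRes) (k : ℕ) {s x : ℝ} (hx : 0 < x) : x ≤ R.N k ^ s ↔ Real.logb (R.N k) x ≤ s :=
  (Real.logb_le_iff_le_rpow (kb_L3_one_lt R k) hx).symm

theorem kb_exp_iff (R : KbRes) {x : ℕ → ℝ} {e : ℝ} (hx : ∀ᶠ k in uf, 0 < x k) :
    KbExp R x e ↔ Tendsto (fun k => - Real.logb (R.N k) (x k)) uf (𝓝 e) := by
  rw [Metric.tendsto_nhds]
  constructor
  · intro h ε hε
    filter_upwards [hx, h (ε / 2) (by positivity)] with k h0 h1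
    rw [kb_L3_rpow_le_iff_logb R k h0, kb_L3_le_rpow_iff_logb R k h0] at h1
    rw [Real.dist_eq, abs_lt]
    constructor <;> linarith [h1.1, h1.2]
  · intro h τ hτ
    filter_upwards [hx, h τ hτ] with k h0 h1
    rw [Real.dist_eq, abs_lt] at h1
    rw [kb_L3_rpow_le_iff_logb R k h0, kb_L3_le_rpow_iff_logb R k h0]
    constructor <;> linarith [h1.1, h1.2]

/-- polynomially bounded positive quantities have an exponent: no subsequence is needed -/
theorem kb_exp_exists (R : KbRes) {x : ℕ → ℝ} {M : ℝ} (hx : ∀ᶠ k in uf, R.N k ^ (-M) ≤ x k ∧ x k ≤ R.N k ^ M) :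
    KbExp R x (kbExpo R x) ∧ |kbExpo R x| ≤ M := by
  have hpos : ∀ᶠ k in uf, 0 < x k := hx.mono fun k hk => lt_of_lt_of_le (kb_L3_rpow_pos R k _) hk.1
  have hb : ∀ᶠ k in uf, -M ≤ - Real.logb (R.N k) (x k) ∧ - Real.logb (R.N k) (x k) ≤ M := by
    filter_upwards [hx, hpos] with k hk h0
    rw [kb_L3_rpow_le_iff_logb R k h0, kb_L3_le_rpow_iff_logb R k h0] at hk
    constructor <;> linarith [hk.1, hk.2]
  have hB : UBdd fun k => - Real.logb (R.N k) (x k) := UBdd.of_le (-M) M hb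
  refine ⟨(kb_exp_iff R hpos).2 (Claimed.Agent.R255.ulim_tendsto _ hB), abs_le.2 ⟨?_, ?_⟩⟩
  · exact Claimed.Agent.R255.const_le_ulim _ _ hB (hb.mono fun _ h => h.1)
  · exact Claimed.Agent.R255.ulim_le_const _ _ hB (hb.mono fun _ h => h.2)

theorem kb_L3_exp_pos (R : KbRes) {x : ℕ → ℝ} {e : ℝ} (h : KbExp R x e) : ∀ᶠ k in uf, 0 < x k :=
  (h 1 one_pos).mono fun k hk => lt_of_lt_of_le (kb_L3_rpow_pos R k _) hk.1

theorem kb_exp_unique (R : KbRes) {x : ℕ → ℝ} {e e' : ℝ} (h : KbExp R x e) (h' : KbExp R x e') : e = e' := by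
  have := Claimed.Agent.R255.uf_neBot
  have hpos := kb_L3_exp_pos R h
  exact tendsto_nhds_unique ((kb_exp_iff R hpos).1 h) ((kb_exp_iff R hpos).1 h')

theorem kb_exp_mul (R : KbRes) {x y : ℕ → ℝ} {e e' : ℝ} (h : KbExp R x e) (h' : KbExp R y e') :
    KbExp R (fun k => x k * y k) (e + e') := by
  intro τ hτ
  filter_upwards [h (τ / 2) (by positivity), h' (τ / 2) (by positivity)] with k a1 a2
  have p1 := kb_L3_rpow_pos R k (-e - τ / 2)
  have p2 := kb_L3_rpow_pos R k (-e' - τ / 2)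
  constructor
  · calc R.N k ^ (-(e + e') - τ) = R.N k ^ (-e - τ / 2) * R.N k ^ (-e' - τ / 2) := by
          rw [← Real.rpow_add (kb_L3_pos R k)]
          congr 1
          ring
      _ ≤ x k * y k := mul_le_mul a1.1 a2.1 p2.le (p1.le.trans a1.1)
  · calc x k * y k ≤ R.N k ^ (-e + τ / 2) * R.N k ^ (-e' + τ / 2) :=
          mul_le_mul a1.2 a2.2 (p2.le.trans a2.1) (kb_L3_rpow_pos R k _).le
      _ = R.N k ^ (-(e + e') + τ) := by
          rw [← Real.rpow_add (kb_L3_pos R k)]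
          congr 1
          ring

theorem kb_exp_sim (R : KbRes) {x y : ℕ → ℝ} {e : ℝ} (h : KbExp R x e) (h' : KbSim R x y) : KbExp R y e := by
  intro τ hτ
  filter_upwards [h (τ / 2) (by positivity), h'.1 (τ / 2) (by positivity), h'.2 (τ / 2) (by positivity)] with k a1 a2 a3
  have p := kb_L3_rpow_pos R k (τ / 2)
  constructor
  · -- `N^{-e-τ/2} ≤ x ≤ N^{τ/2} y`
    have b : R.N k ^ (-e - τ / 2) ≤ R.N k ^ (τ / 2) * y k := a1.1.trans a2
    have e1 : R.N k ^ (-e - τ) = (R.N k ^ (τ / 2))⁻¹ * R.N k ^ (-e - τ / 2) := by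
      rw [← Real.rpow_neg (kb_L3_pos R k).le, ← Real.rpow_add (kb_L3_pos R k)]
      congr 1
      ring
    rw [e1]
    calc (R.N k ^ (τ / 2))⁻¹ * R.N k ^ (-e - τ / 2) ≤ (R.N k ^ (τ / 2))⁻¹ * (R.N k ^ (τ / 2) * y k) :=
          mul_le_mul_of_nonneg_left b (inv_nonneg.2 p.le)
      _ = y k := by rw [← mul_assoc, inv_mul_cancel₀ p.ne', one_mul]
  · calc y k ≤ R.N k ^ (τ / 2) * x k := a3
      _ ≤ R.N k ^ (τ / 2) * R.N k ^ (-e + τ / 2) := mul_le_mul_of_nonneg_left a1.2 p.le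
      _ = R.N k ^ (-e + τ) := by
          rw [← Real.rpow_add (kb_L3_pos R k)]
          congr 1
          ring

theorem kb_exp_le (R : KbRes) {x y : ℕ → ℝ} {e e' : ℝ} (h : KbExp R x e) (h' : KbExp R y e') (hle : KbLe R x y) : e' ≤ e := by
  have := Claimed.Agent.R255.uf_neBot
  refine le_of_forall_pos_le_add fun ε hε => ?_
  have ev : ∀ᶠ k in uf, e' ≤ e + ε := by
    filter_upwards [h (ε / 3) (by positivity), h' (ε / 3) (by positivity), hle (ε / 3) (by positivity)] with k a1 a2 a3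
    have b : R.N k ^ (-e - ε / 3) ≤ R.N k ^ (ε / 3 + (-e' + ε / 3)) := by
      rw [Real.rpow_add (kb_L3_pos R k)]
      exact (a1.1.trans a3).trans (mul_le_mul_of_nonneg_left a2.2 (kb_L3_rpow_pos R k _).le)
    have := (kb_L3_rpow_le_iff R k).1 b
    linarith
  exact ev.exists.choose_spec

/-- change of base `N₀ ↦ N₀^L` -/
noncomputable def KbRes.pow (R : KbRes) (L : ℝ) (hL : 0 < L) : KbRes where
  N := fun k => max 2 (R.N k ^ L)
  two_le := fun _ => le_max_left _ _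
  lim := kb_pow_lim R L hL

/-- forces the on-demand equation lemmas of ALL definitions of this file to live HERE (RULES.md, rule 6: copies in two consumer files collide in the joint check) -/
theorem kb_lang_eqns_cite : True := by
  have := @KbExp.eq_1
  have := @KbLe.eq_1
  have := @KbNeg.eq_1
  have := @KbPow.eq_1
  have := @KbRes.pow.eq_1
  have := @KbSim.eq_1
  have := @KbSubP.eq_1
  have := @kbExpo.eq_1
  trivial

end Claimed.Agent.R252
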