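import Claimed.Agent.R252.Base.Sys

/-!
# ROW 252 (S0492), unit BASE (chief architect helper103), file 4: NORMALISATION AND LIFTING AT ONE SCALE  (02-framework.tex L2.13, l.666-835).      Definitions only.

`Y.norm a : KbPb v` : every chart `c` of `Y` becomes a world.  SAME trajectory space `Lam`; prior `ν_γ( · | A_c)`; weight `ω_γ q ν_c / Z`; new coordinates
`t = t_c + q τ`, `y = y_c(t) + D_c z`;  version 1: `w' = T_c(t,y,w) / a` (`T_c = w - F`), `B' = 1`, `P_*' = w'`;   version 2: `w' = w`, `B' = B / a`, `P_*'(τ,z,w) = T_c(t,y,w) / a`.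
The new event is `{(l,τ) | (l, t_c + q τ) ∈ S c}`, the new support is `A c`.   (At `r = 0` 'retain the native test' = take `T_c = P_*`, `a = 1`.)
`Y.lift a Y' : KbSys P` for `Y' : KbSys (Y.norm a)` : labels of `Y'` (they know their parent `Y'.wd d : Y.C`), level `n + n'`, `A = A_c ∩ A_d`, `D = D_c D_d`, centre `y_c(t) + D_c y_d(τ)`,
test `a T_d(τ, z, w')`.
-/

set_option autoImplicit false

namespace Claimed.Agent.R252

open MeasureTheory
open scoped ENNReal BigOperators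

noncomputable section

variable {v : KbVer}

/-- coefficients of the polynomial of degree `< e` which interpolates `g` (nodes `0, 1/2, 1`, resp. `0, 1`) -/
def kbFit : (v : KbVer) → (ℝ → ℝ) → Fin v.e → ℝ
  | .one, g => ![g 0, -3 * g 0 + 4 * g (1 / 2) - g 1, 2 * g 0 - 4 * g (1 / 2) + 2 * g 1]
  | .two, g => ![g 0, g 1 - g 0]

namespace KbSys

variable {P : KbPb v} (Y : KbSys P)

/-- old time of the new time `τ` in the chart `c` -/
def tOf (c : Y.C) (τ : ℝ) : ℝ := Y.tc c + Y.q * τ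

/-- new time of the old time `t` -/
def tauOf (c : Y.C) (t : ℝ) : ℝ := (t - Y.tc c) / Y.q

/-- old base point of the new base point `(τ, z)` -/
def yOf (c : Y.C) (τ : ℝ) (z : KbB v) : KbB v := (Y.ch c).yc (Y.tOf c τ) + (Y.ch c).D.mulVec z

/-- new base point of the old base point `(t, y)` -/
def zOf (c : Y.C) (t : ℝ) (y : KbB v) : KbB v := (Y.ch c).Di.mulVec (y - (Y.ch c).yc t)

/-- new hidden coordinate of the old point `(t, y, w)` -/
def wOf (a : ℝ) (c : Y.C) (t : ℝ) (y : KbB v) (w : ℝ) : ℝ := if v = KbVer.one then (Y.ch c).T t y w / a else w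

/-- new trajectory coefficients -/
def coN (a : ℝ) (c : Y.C) (l : P.Lam) : KbTj v :=
  (Y.zOf c (Y.tc c) (kbY (P.co (Y.wd c) l) (Y.tc c)),
   Y.q • (Y.ch c).Di.mulVec (kbV (P.co (Y.wd c) l) - (Y.ch c).y1),
   kbFit v fun τ => Y.wOf a c (Y.tOf c τ) (kbY (P.co (Y.wd c) l) (Y.tOf c τ)) (kbW (P.co (Y.wd c) l) (Y.tOf c τ)))

/-- **the normalised problem** -/
def norm (a : ℝ) : KbPb v where
  W := Y.C
  fW := Y.fC
  Lam := P.Lam
  mLam := P.mLam
  om := fun c => P.om (Y.wd c) * ENNReal.ofReal Y.q * Y.nuC c / Y.Z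
  nu := fun c => (Y.nuC c)⁻¹ • (P.nu (Y.wd c)).restrict (Y.A c)
  co := Y.coN a
  Sp := Y.A
  Ev := fun c => {x | (x.1, Y.tOf c x.2) ∈ Y.S c}
  B := fun c => if v = KbVer.one then 1 else P.B (Y.wd c) / a
  Pst := fun c τ z w => if v = KbVer.one then w else (Y.ch c).T (Y.tOf c τ) (Y.yOf c τ z) w / a

/-- the old incidence of a new incidence -/
def incOf (c : Y.C) (x : P.Lam × ℝ) : P.Lam × ℝ := (x.1, Y.tOf c x.2)

/-- **the lift of a chart system of the normalised problem** -/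
def lift (a : ℝ) (Y' : KbSys (Y.norm a)) : KbSys P where
  n := Y.n + Y'.n
  C := Y'.C
  fC := Y'.fC
  wd := fun d => Y.wd (Y'.wd d)
  iv := fun d => Y.iv (Y'.wd d) * 2 ^ Y'.n + Y'.iv d
  A := fun d => Y.A (Y'.wd d) ∩ Y'.A d
  S := fun d => {x | (x.1, Y.tauOf (Y'.wd d) x.2) ∈ Y'.S d}
  ch := fun d =>
    { y0 := (Y.ch (Y'.wd d)).y0 + (Y.ch (Y'.wd d)).D.mulVec ((Y'.ch d).y0 - (Y.tc (Y'.wd d) / Y.q) • (Y'.ch d).y1)
      y1 := (Y.ch (Y'.wd d)).y1 + (1 / Y.q) • (Y.ch (Y'.wd d)).D.mulVec (Y'.ch d).y1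
      D := (Y.ch (Y'.wd d)).D * (Y'.ch d).D
      Di := (Y'.ch d).Di * (Y.ch (Y'.wd d)).Di
      T := fun t y w => a * (Y'.ch d).T (Y.tauOf (Y'.wd d) t) (Y.zOf (Y'.wd d) t y) (Y.wOf a (Y'.wd d) t y w) }

end KbSys

/-- forces the on-demand equation lemmas of ALL definitions of this file to live HERE (RULES.md, rule 6: copies in two consumer files collide in the joint check) -/
theorem kb_nrm_eqns_cite : True := by
  have := @KbSys.coN.eq_1
  have := @KbSys.incOf.eq_1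
  have := @KbSys.lift.eq_1
  have := @KbSys.norm.eq_1
  have := @KbSys.tOf.eq_1
  have := @KbSys.tauOf.eq_1
  have := @KbSys.wOf.eq_1
  have := @KbSys.yOf.eq_1
  have := @KbSys.zOf.eq_1
  have := @kbFit.eq_1
  have := @kbFit.eq_2
  trivial

end

end Claimed.Agent.R252
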