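import Mathlib

/-!
# ROW 252 (S0492), unit BASE (chief architect helper103), file 2: ONE-SCALE WEIGHTED PROBLEMS  (02-framework.tex Def 2.1, 2.2, l.29-150).      Definitions only.

DESIGN RULES.
1. DATA structures carry NO proofs (`KbPb`, later `KbSys`); all requirements are separate predicates, every slack is an explicit real `K` (think `K ≥ 1`).
2. The trajectory space is an ABSTRACT measurable space `Lam` with a coefficient map `co γ : Lam → KbTj v` that may depend on the world.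
   So internal indices, copies, histories are free, and normalisation (file `Norm`) keeps `Lam` and the measures and only changes `co` : no push-forward of priors, ever.
3. `Sp γ ⊆ Lam` is a set of full prior measure on which all trajectory bounds hold POINTWISE (no a.e. quantifiers in geometry).
4. incidences = `Lam × ℝ`;  `mu γ = 1_{Ev γ} (nu γ × dt|[0,1])`, NOT normalised; masses are `ℝ≥0∞` (as in `State/KsState`, whose `Ω` is `Lam × ℝ`).
5. a test is a FUNCTION `T : ℝ → KbB v → ℝ → ℝ` with the predicate `KbIsQuad`; `∂_w`, `∂_ww` are the exact finite differences `kbDw`, `kbDww` (no calculus).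
6. an observation = exact base `(t, y(t))` + a DISCRETE label `ℓ γ x`; its within-world density at the incidence `x` is `P.dn ℓ γ x` (Radon-Nikodym derivative w.r.t. `dt dy` of the part of `mu γ` with the same label).
   `p_r` is the label `P.hid a` with `a = N^{-r}`;  `(p_r, [V]_{a_u})` is `P.hv a b`.
7. 'tempered' = polynomial bounds only (`KbPb.Tmp Q`, `Q = N^M`); selections are arbitrary measurable sets.
-/

set_option autoImplicit false

namespace Claimed.Agent.R252

open MeasureTheory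
open scoped ENNReal BigOperators

noncomputable section

/-- the two model versions -/
inductive KbVer
  | one
  | two
  deriving DecidableEq

/-- dimension of the base -/
def KbVer.j : KbVer → ℕ
  | .one => 1
  | .two => 2

/-- number of coefficients of the hidden coordinate (`w` quadratic in version 1, affine in version 2) -/
def KbVer.e : KbVer → ℕ
  | .one => 3
  | .two => 2

/-- the base space `ℝ^j` (sup norm) -/
abbrev KbB (v : KbVer) := Fin v.j → ℝ

/-- trajectory coefficients `(y₀, V, (w_i))` -/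
abbrev KbTj (v : KbVer) := KbB v × KbB v × (Fin v.e → ℝ)

variable {v : KbVer}

/-- `y(t) = y₀ + t V` -/
def kbY (l : KbTj v) (t : ℝ) : KbB v := l.1 + t • l.2.1

/-- the velocity -/
def kbV (l : KbTj v) : KbB v := l.2.1

/-- `w(t) = ∑ w_i t^i` -/
def kbW (l : KbTj v) (t : ℝ) : ℝ := ∑ i, l.2.2 i * t ^ (i : ℕ)

/-- a test, as a function of `(t, y, w)` -/
abbrev KbTest (v : KbVer) := ℝ → KbB v → ℝ → ℝ

/-- coefficients of a polynomial of total degree `≤ 2` in `(t, y, w)` -/
structure KbQuad (v : KbVer) where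
  c0 : ℝ
  ct : ℝ
  cy : KbB v
  cw : ℝ
  ctt : ℝ
  cty : KbB v
  ctw : ℝ
  cyy : Matrix (Fin v.j) (Fin v.j) ℝ
  cyw : KbB v
  cww : ℝ

/-- evaluation -/
def KbQuad.ev (Q : KbQuad v) : KbTest v := fun t y w =>
  Q.c0 + Q.ct * t + Q.cy ⬝ᵥ y + Q.cw * w + Q.ctt * t ^ 2 + t * (Q.cty ⬝ᵥ y) + Q.ctw * t * w + y ⬝ᵥ Q.cyy.mulVec y
    + w * (Q.cyw ⬝ᵥ y) + Q.cww * w ^ 2

/-- total degree `≤ 2` -/
def KbIsQuad (T : KbTest v) : Prop := ∃ Q : KbQuad v, ∀ t y w, T t y w = Q.ev t y w

/-- a test of the model class: quadratic; in version 1 of the form `w - F(t,y)` -/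
def KbAdm (T : KbTest v) : Prop := KbIsQuad T ∧ (v = KbVer.one → ∀ t y w, T t y w = w + T t y 0)

/-- `∂_w T` (exact for quadratics) -/
def kbDw (T : KbTest v) : KbTest v := fun t y w => (T t y (w + 1) - T t y (w - 1)) / 2

/-- `∂_ww T` (exact for quadratics; a constant) -/
def kbDww (T : KbTest v) : KbTest v := fun t y w => T t y (w + 1) - 2 * T t y w + T t y (w - 1)

/-- a test along a trajectory -/
def kbX (T : KbTest v) (l : KbTj v) (t : ℝ) : ℝ := T t (kbY l t) (kbW l t)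

/-- dyadic rounding upwards: `x ≤ kbDy x < 2 x` for `x > 0` -/
def kbDy (x : ℝ) : ℝ := (2 : ℝ) ^ (⌈Real.logb 2 x⌉ : ℤ)

/-- the bin of `x` in the nested half-open dyadic grid of requested width `wd` -/
def kbBin (wd x : ℝ) : ℤ := ⌊x / kbDy wd⌋

/-- **a weighted problem at one scale** (data only) -/
structure KbPb (v : KbVer) where
  /-- auxiliary worlds -/
  W : Type
  fW : Fintype W
  /-- (indexed) trajectories -/
  Lam : Type
  mLam : MeasurableSpace Lam
  /-- world weights -/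
  om : W → ℝ≥0∞
  /-- priors -/
  nu : W → Measure Lam
  /-- coefficients of a trajectory in the coordinates of the world -/
  co : W → Lam → KbTj v
  /-- full-measure set of trajectories on which the bounds hold -/
  Sp : W → Set Lam
  /-- incidence selection -/
  Ev : W → Set (Lam × ℝ)
  /-- derivative scale -/
  B : W → ℝ
  /-- native test `P_*` -/
  Pst : W → KbTest v

attribute [instance] KbPb.fW KbPb.mLam

namespace KbPb

variable (P : KbPb v)

/-- uniform time on `[0,1]` -/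
def tm : Measure ℝ := volume.restrict (Set.Icc 0 1)

/-- the unnormalised incidence measure of a world, (2.2) -/
def mu (γ : P.W) : Measure (P.Lam × ℝ) := ((P.nu γ).prod tm).restrict (P.Ev γ)

/-- weighted mass of a family of incidence sets -/
def mass (S : P.W → Set (P.Lam × ℝ)) : ℝ≥0∞ := ∑ γ, P.om γ * P.mu γ (S γ)

/-- total selected mass -/
def tot : ℝ≥0∞ := P.mass fun _ => Set.univ

/-- exact base `(t, y(t))` of an incidence -/
def bs (γ : P.W) (x : P.Lam × ℝ) : ℝ × KbB v := (x.2, kbY (P.co γ x.1) x.2)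

/-- hidden coordinate at an incidence -/
def hw (γ : P.W) (x : P.Lam × ℝ) : ℝ := kbW (P.co γ x.1) x.2

/-- native signal `X = P_*(t, y, w)` at an incidence -/
def sig (γ : P.W) (x : P.Lam × ℝ) : ℝ := kbX (P.Pst γ) (P.co γ x.1) x.2

/-- well-formedness (no slack) -/
structure WF : Prop where
  om_sum : ∑ γ, P.om γ = 1
  prob : ∀ γ, IsProbabilityMeasure (P.nu γ)
  co_meas : ∀ γ, Measurable (P.co γ)
  Sp_meas : ∀ γ, MeasurableSet (P.Sp γ)
  Sp_full : ∀ γ, P.nu γ (P.Sp γ)ᶜ = 0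
  Ev_meas : ∀ γ, MeasurableSet (P.Ev γ)
  Ev_sub : ∀ γ, P.Ev γ ⊆ P.Sp γ ×ˢ Set.Icc (0 : ℝ) 1
  B_pos : ∀ γ, 0 < P.B γ
  Pst_adm : ∀ γ, KbAdm (P.Pst γ)
  v1 : v = KbVer.one → ∀ γ, P.B γ = 1 ∧ ∀ t y w, P.Pst γ t y w = w
  ac : ∀ γ, (P.nu γ).map (P.co γ) ≪ volume

/-- the native bounds (2.1) with slack `K` -/
structure Ntv (K : ℝ) : Prop where
  base : ∀ γ, ∀ l ∈ P.Sp γ, ∀ t ∈ Set.Icc (0 : ℝ) 1, ‖kbY (P.co γ l) t‖ + ‖kbV (P.co γ l)‖ ≤ K
  sig : ∀ γ, ∀ l ∈ P.Sp γ, ∀ t ∈ Set.Icc (0 : ℝ) 1, |kbX (P.Pst γ) (P.co γ l) t| ≤ K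
  dw : ∀ γ, ∀ l ∈ P.Sp γ, ∀ t ∈ Set.Icc (0 : ℝ) 1, |kbX (kbDw (P.Pst γ)) (P.co γ l) t| ≤ K * P.B γ
  dw_low : ∀ γ, ∀ x ∈ P.Ev γ, P.B γ ≤ K * |kbX (kbDw (P.Pst γ)) (P.co γ x.1) x.2|
  dww : ∀ γ t y w, |kbDww (P.Pst γ) t y w| ≤ K * P.B γ ^ 2
  mass : 1 ≤ ENNReal.ofReal K * P.tot

/-- 'tempered' in the measurable model: polynomial bounds `Q = N^M` -/
structure Tmp (Q : ℝ) : Prop where
  card : (Fintype.card P.W : ℝ) ≤ Q
  B_le : ∀ γ, P.B γ ≤ Q ∧ 1 ≤ Q * P.B γ
  co_le : ∀ γ, ∀ l ∈ P.Sp γ, ‖P.co γ l‖ ≤ Q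
  dens : ∀ γ, (P.nu γ).map (P.co γ) ≤ ENNReal.ofReal Q • volume

/-- a discrete label on incidences -/
abbrev Lab (D : Type) := P.W → P.Lam × ℝ → D

/-- all events of a label are measurable -/
def LabMeas {D : Type} (ℓ : P.Lab D) : Prop := ∀ γ d, MeasurableSet (ℓ γ ⁻¹' {d})

/-- two labels together -/
def lpair {D D' : Type} (ℓ : P.Lab D) (ℓ' : P.Lab D') : P.Lab (D × D') := fun γ x => (ℓ γ x, ℓ' γ x)

/-- the base measure of the part of `mu γ` with label `d` -/
def part {D : Type} (ℓ : P.Lab D) (γ : P.W) (d : D) : Measure (ℝ × KbB v) := ((P.mu γ).restrict (ℓ γ ⁻¹' {d})).map (P.bs γ)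

/-- density of the observation `(γ, t, y(t), ℓ)` w.r.t. `dt dy` and counting measure, as a function of base and label -/
def den {D : Type} (ℓ : P.Lab D) (γ : P.W) (d : D) (o : ℝ × KbB v) : ℝ≥0∞ := (P.part ℓ γ d).rnDeriv volume o

/-- the same, evaluated at the sampled incidence -/
def dn {D : Type} (ℓ : P.Lab D) (γ : P.W) (x : P.Lam × ℝ) : ℝ≥0∞ := P.den ℓ γ (ℓ γ x) (P.bs γ x)

/-- hidden bin `[w(t)]_{a/B}` : the label of `p_r`, `a = a_r`  (2.3) -/
def hid (a : ℝ) : P.Lab ℤ := fun γ x => kbBin (a / P.B γ) (P.hw γ x)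

/-- velocity bin `[V]_b` -/
def vel (b : ℝ) : P.Lab (Fin v.j → ℤ) := fun γ x i => kbBin b (kbV (P.co γ x.1) i)

/-- the label of `(p_r, [V]_{a_u})` -/
def hv (a b : ℝ) : P.Lab (ℤ × (Fin v.j → ℤ)) := P.lpair (P.hid a) (P.vel b)

/-- incidences where the density of `ℓ` is above `hi` -/
def above {D : Type} (ℓ : P.Lab D) (hi : ℝ) : P.W → Set (P.Lam × ℝ) := fun γ => {x | ENNReal.ofReal hi < P.dn ℓ γ x}

/-- incidences where the density of `ℓ` is below `lo` -/
def below {D : Type} (ℓ : P.Lab D) (lo : ℝ) : P.W → Set (P.Lam × ℝ) := fun γ => {x | P.dn ℓ γ x < ENNReal.ofReal lo}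

/-- a further selection -/
def sel (S : P.W → Set (P.Lam × ℝ)) : KbPb v := { P with Ev := fun γ => P.Ev γ ∩ S γ }

end KbPb

/-- forces the on-demand equation lemmas of ALL definitions of this file to live HERE (RULES.md, rule 6: copies in two consumer files collide in the joint check) -/
theorem kb_pb_eqns_cite : True := by
  have := @KbAdm.eq_1
  have := @KbB.eq_1
  have := @KbIsQuad.eq_1
  have := @KbPb.Lab.eq_1
  have := @KbPb.LabMeas.eq_1
  have := @KbPb.above.eq_1
  have := @KbPb.below.eq_1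
  have := @KbPb.bs.eq_1
  have := @KbPb.den.eq_1
  have := @KbPb.dn.eq_1
  have := @KbPb.hid.eq_1
  have := @KbPb.hv.eq_1
  have := @KbPb.hw.eq_1
  have := @KbPb.lpair.eq_1
  have := @KbPb.mass.eq_1
  have := @KbPb.mu.eq_1
  have := @KbPb.part.eq_1
  have := @KbPb.sel.eq_1
  have := @KbPb.sig.eq_1
  have := @KbPb.tm.eq_1
  have := @KbPb.tot.eq_1
  have := @KbPb.vel.eq_1
  have := @KbQuad.ev.eq_1
  have := @KbTest.eq_1
  have := @KbTj.eq_1
  have := @KbVer.e.eq_1
  have := @KbVer.e.eq_2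
  have := @KbVer.j.eq_1
  have := @KbVer.j.eq_2
  have := @kbBin.eq_1
  have := @kbDw.eq_1
  have := @kbDww.eq_1
  have := @kbDy.eq_1
  have := @kbV.eq_1
  have := @kbW.eq_1
  have := @kbX.eq_1
  have := @kbY.eq_1
  trivial

end

end Claimed.Agent.R252
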