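import Claimed.Agent.R252.Base.Seq

/-!
# ROW 252 (S0492), unit BASE, leaf L-252-KB-SANITY (helper139): a NONTRIVIAL inhabitant of the one-scale language, for BOTH versions at once.

`kbsP v : KbPb v` : one world, `Lam = KbTj v`, prior = Lebesgue measure on the unit cube, `co = id`, `Sp` = cube, `Ev` = cube × [0,1], `B = 1`, `P_* = w`.
`kbs_wf`, `kbs_ntv` (slack 4), `kbs_tmp` (4).
`kbsY v : KbSys (kbsP v)` : `n = 0`, one chart, centre 0, `D = Di = 1`, `T = w`, `A` = cube, `S` = cube × [0,1).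
`kbs_sys_wf`, `kbs_sys_geo` (slack 4, thickness 1), `kbs_sys_big` (4), and also `Tmp 4`, `Tru 4 1`, `Sat 4 1`, `Known ℓ 1` for every label.   All with any slack `≥ 4` (`*_ge`).
`kbsE v R : KbEx v` the constant sequence (`L = 1`): `kbs_ex_ok : (kbsE v R).Ok`, `kbs_ex_sys : (kbsE v R).IsSys (fun _ => kbsY v) 0 0`.
REMARK: with `D = 4 • 1` the field `Geo.size` FAILS at slack 4 in version two (`kbMn` is the SUM of the entries: `8 > q K = 4`); `D = 1` satisfies all fields.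
-/

set_option autoImplicit false

namespace Claimed.Agent.R252

open MeasureTheory
open scoped ENNReal BigOperators

noncomputable section

/-- the unit cube of `ℝ^n` -/
def kbsC (n : ℕ) : Set (Fin n → ℝ) := Set.Icc 0 1

/-- the unit cube of the coefficient space -/
def kbsCube (v : KbVer) : Set (KbTj v) := kbsC v.j ×ˢ kbsC v.j ×ˢ kbsC v.e

theorem kbs_C_meas (n : ℕ) : MeasurableSet (kbsC n) := measurableSet_Icc

theorem kbs_C_vol (n : ℕ) : volume (kbsC n) = 1 := by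
  unfold kbsC
  rw [Real.volume_Icc_pi]
  simp

theorem kbs_C_norm {n : ℕ} {x : Fin n → ℝ} (hx : x ∈ kbsC n) : ‖x‖ ≤ 1 := by
  rw [pi_norm_le_iff_of_nonneg zero_le_one]
  intro i
  rw [Real.norm_eq_abs, abs_le]
  have h0 := hx.1 i
  have h1 := hx.2 i
  simp only [Pi.zero_apply, Pi.one_apply] at h0 h1
  constructor <;> linarith

theorem kbs_cube_meas (v : KbVer) : MeasurableSet (kbsCube v) :=
  (kbs_C_meas _).prod ((kbs_C_meas _).prod (kbs_C_meas _))

theorem kbs_cube_vol (v : KbVer) : volume (kbsCube v) = 1 := by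
  unfold kbsCube
  rw [Measure.volume_eq_prod, Measure.prod_prod, Measure.volume_eq_prod, Measure.prod_prod, kbs_C_vol, kbs_C_vol]
  simp

theorem kbs_cube_norm {v : KbVer} {l : KbTj v} (hl : l ∈ kbsCube v) : ‖l‖ ≤ 1 := by
  obtain ⟨h1, h2, h3⟩ := hl
  exact max_le (kbs_C_norm h1) (max_le (kbs_C_norm h2) (kbs_C_norm h3))

theorem kbs_e_le (v : KbVer) : v.e ≤ 3 := by cases v <;> simp [KbVer.e]

theorem kbs_j_le (v : KbVer) : v.j ≤ 2 := by cases v <;> simp [KbVer.j]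

/-- the test `w` -/
def kbsT (v : KbVer) : KbTest v := fun _ _ w => w

theorem kbs_T_adm (v : KbVer) : KbAdm (kbsT v) := by
  refine ⟨⟨⟨0, 0, 0, 1, 0, 0, 0, 0, 0, 0⟩, fun t y w => ?_⟩, fun _ t y w => ?_⟩
  · simp [kbsT, KbQuad.ev]
  · simp [kbsT]

theorem kbs_T_dw (v : KbVer) (t : ℝ) (y : KbB v) (w : ℝ) : kbDw (kbsT v) t y w = 1 := by
  unfold kbDw kbsT
  ring

theorem kbs_T_dww (v : KbVer) (t : ℝ) (y : KbB v) (w : ℝ) : kbDww (kbsT v) t y w = 0 := by
  unfold kbDww kbsT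
  ring

theorem kbs_W_le {v : KbVer} {l : KbTj v} (hl : l ∈ kbsCube v) {t : ℝ} (ht : t ∈ Set.Icc (0 : ℝ) 1) : |kbW l t| ≤ 3 := by
  unfold kbW
  refine (Finset.abs_sum_le_sum_abs _ _).trans ?_
  have h : ∀ i : Fin v.e, |l.2.2 i * t ^ (i : ℕ)| ≤ 1 := by
    intro i
    rw [abs_mul, abs_pow]
    have h1 : |l.2.2 i| ≤ 1 := (norm_le_pi_norm l.2.2 i).trans (kbs_C_norm hl.2.2)
    have h2 : |t| ^ (i : ℕ) ≤ 1 := pow_le_one₀ (abs_nonneg _) (by rw [abs_of_nonneg ht.1]; exact ht.2)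
    exact mul_le_one₀ h1 (by positivity) h2
  calc ∑ i : Fin v.e, |l.2.2 i * t ^ (i : ℕ)| ≤ ∑ _i : Fin v.e, (1 : ℝ) := Finset.sum_le_sum fun i _ => h i
    _ = v.e := by simp
    _ ≤ 3 := by exact_mod_cast kbs_e_le v

theorem kbs_Y_le {v : KbVer} {l : KbTj v} (hl : l ∈ kbsCube v) {t : ℝ} (ht : t ∈ Set.Icc (0 : ℝ) 1) : ‖kbY l t‖ ≤ 2 := by
  unfold kbY
  refine (norm_add_le _ _).trans ?_
  rw [norm_smul, Real.norm_eq_abs, abs_of_nonneg ht.1]
  have h1 := kbs_C_norm hl.1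
  have h2 := kbs_C_norm hl.2.1
  have h3 : t * ‖l.2.1‖ ≤ 1 := mul_le_one₀ ht.2 (norm_nonneg _) h2
  linarith

/-- **the model problem** -/
def kbsP (v : KbVer) : KbPb v where
  W := Unit
  fW := inferInstance
  Lam := KbTj v
  mLam := inferInstance
  om := fun _ => 1
  nu := fun _ => volume.restrict (kbsCube v)
  co := fun _ => id
  Sp := fun _ => kbsCube v
  Ev := fun _ => kbsCube v ×ˢ Set.Icc (0 : ℝ) 1
  B := fun _ => 1
  Pst := fun _ => kbsT v

theorem kbs_nu_cube (v : KbVer) : (volume.restrict (kbsCube v)) (kbsCube v) = 1 := by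
  rw [Measure.restrict_apply_self, kbs_cube_vol]

instance kbs_tm_sfinite : SFinite KbPb.tm := by
  unfold KbPb.tm
  infer_instance

theorem kbs_tm_Icc : KbPb.tm (Set.Icc (0 : ℝ) 1) = 1 := by
  unfold KbPb.tm
  rw [Measure.restrict_apply_self]
  simp

theorem kbs_tm_Ico : KbPb.tm (Set.Ico (0 : ℝ) 1) = 1 := by
  unfold KbPb.tm
  rw [Measure.restrict_apply measurableSet_Ico, Set.inter_eq_left.2 Set.Ico_subset_Icc_self]
  simp

theorem kbs_wf (v : KbVer) : (kbsP v).WF where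
  om_sum := by
    show ∑ _γ : Unit, (1 : ℝ≥0∞) = 1
    simp
  prob := fun _ => ⟨by
    show (volume.restrict (kbsCube v)) Set.univ = 1
    rw [Measure.restrict_apply_univ, kbs_cube_vol]⟩
  co_meas := fun _ => measurable_id
  Sp_meas := fun _ => kbs_cube_meas v
  Sp_full := fun _ => by
    show (volume.restrict (kbsCube v)) (kbsCube v)ᶜ = 0
    rw [Measure.restrict_apply (kbs_cube_meas v).compl, Set.compl_inter_self, measure_empty]
  Ev_meas := fun _ => (kbs_cube_meas v).prod measurableSet_Icc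
  Ev_sub := fun _ => subset_rfl
  B_pos := fun _ => one_pos
  Pst_adm := fun _ => kbs_T_adm v
  v1 := fun _ _ => ⟨rfl, fun _ _ _ => rfl⟩
  ac := fun _ => by
    show (volume.restrict (kbsCube v)).map id ≪ volume
    rw [Measure.map_id]
    exact Measure.restrict_le_self.absolutelyContinuous

theorem kbs_tot (v : KbVer) : (kbsP v).tot = 1 := by
  unfold KbPb.tot KbPb.mass KbPb.mu
  show ∑ _γ : Unit, (1 : ℝ≥0∞) * (((volume.restrict (kbsCube v)).prod KbPb.tm).restrict (kbsCube v ×ˢ Set.Icc (0 : ℝ) 1)) Set.univ = 1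
  rw [Measure.restrict_apply_univ, Measure.prod_prod, kbs_nu_cube, kbs_tm_Icc]
  simp

theorem kbs_ntv_ge (v : KbVer) {K : ℝ} (hK : 4 ≤ K) : (kbsP v).Ntv K where
  base := fun _ l hl t ht => by
    have h1 : ‖kbY l t‖ ≤ 2 := kbs_Y_le hl ht
    have h2 : ‖kbV l‖ ≤ 1 := kbs_C_norm hl.2.1
    show ‖kbY l t‖ + ‖kbV l‖ ≤ K
    linarith
  sig := fun _ l hl t ht => by
    show |kbW l t| ≤ K
    exact (kbs_W_le hl ht).trans (by linarith)
  dw := fun _ l _ t _ => by
    show |kbDw (kbsT v) t (kbY l t) (kbW l t)| ≤ K * 1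
    rw [kbs_T_dw, abs_one]
    linarith
  dw_low := fun _ x _ => by
    show (1 : ℝ) ≤ K * |kbDw (kbsT v) x.2 (kbY x.1 x.2) (kbW x.1 x.2)|
    rw [kbs_T_dw, abs_one]
    linarith
  dww := fun _ t y w => by
    show |kbDww (kbsT v) t y w| ≤ K * 1 ^ 2
    rw [kbs_T_dww, abs_zero]
    linarith
  mass := by
    rw [kbs_tot, mul_one]
    exact ENNReal.one_le_ofReal.2 (by linarith)

theorem kbs_ntv (v : KbVer) : (kbsP v).Ntv 4 := kbs_ntv_ge v le_rfl

theorem kbs_tmp_ge (v : KbVer) {Q : ℝ} (hQ : 4 ≤ Q) : (kbsP v).Tmp Q where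
  card := by
    show ((Fintype.card Unit : ℕ) : ℝ) ≤ Q
    simp only [Fintype.card_unit, Nat.cast_one]
    linarith
  B_le := fun _ => by
    show (1 : ℝ) ≤ Q ∧ (1 : ℝ) ≤ Q * 1
    constructor <;> linarith
  co_le := fun _ l hl => (kbs_cube_norm (v := v) (l := l) hl).trans (by linarith)
  dens := fun _ => by
    show (volume.restrict (kbsCube v)).map id ≤ ENNReal.ofReal Q • volume
    rw [Measure.map_id]
    refine Measure.restrict_le_self.trans ?_
    intro s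
    rw [Measure.smul_apply, smul_eq_mul]
    exact le_mul_of_one_le_left zero_le (ENNReal.one_le_ofReal.2 (by linarith))

theorem kbs_tmp (v : KbVer) : (kbsP v).Tmp 4 := kbs_tmp_ge v le_rfl

/-! ## the chart system -/

/-- the chart: centre `0`, `D = Di = 1`, test `w` -/
def kbsCh (v : KbVer) : KbChart v where
  y0 := 0
  y1 := 0
  D := 1
  Di := 1
  T := kbsT v

/-- **the model system**: one chart on the whole time interval -/
def kbsY (v : KbVer) : KbSys (kbsP v) where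
  n := 0
  C := Unit
  fC := inferInstance
  wd := fun _ => ()
  iv := fun _ => 0
  A := fun _ => kbsCube v
  S := fun _ => kbsCube v ×ˢ Set.Ico (0 : ℝ) 1
  ch := fun _ => kbsCh v

theorem kbs_q (v : KbVer) : (kbsY v).q = 1 := by
  show kbQ 0 = 1
  simp [kbQ]

theorem kbs_I (v : KbVer) (c : (kbsY v).C) : (kbsY v).I c = Set.Ico (0 : ℝ) 1 := by
  show kbI 0 0 = Set.Ico (0 : ℝ) 1
  simp [kbI, kbQ]

theorem kbs_J (v : KbVer) : (kbsCh v).J = 1 := by
  show |(1 : Matrix (Fin v.j) (Fin v.j) ℝ).det| = 1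
  simp

theorem kbs_Mn (v : KbVer) : kbMn (kbsCh v).D ≤ 2 := by
  show ∑ i, ∑ k, |(1 : Matrix (Fin v.j) (Fin v.j) ℝ) i k| ≤ 2
  have h : ∀ i : Fin v.j, ∑ k, |(1 : Matrix (Fin v.j) (Fin v.j) ℝ) i k| = 1 := by
    intro i
    rw [Finset.sum_eq_single i]
    · simp
    · intro k _ hk
      rw [Matrix.one_apply_ne (Ne.symm hk), abs_zero]
    · intro h
      exact absurd (Finset.mem_univ i) h
  rw [Finset.sum_congr rfl fun i _ => h i]
  simp only [Finset.sum_const, Finset.card_univ, Fintype.card_fin, nsmul_eq_mul, mul_one]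
  exact_mod_cast kbs_j_le v

theorem kbs_mC (v : KbVer) (c : (kbsY v).C) : (kbsY v).mC c = 1 := by
  show (((volume.restrict (kbsCube v)).prod KbPb.tm).restrict (kbsCube v ×ˢ Set.Icc (0 : ℝ) 1)) (kbsCube v ×ˢ Set.Ico (0 : ℝ) 1) = 1
  rw [Measure.restrict_apply ((kbs_cube_meas v).prod measurableSet_Ico),
    Set.inter_eq_left.2 (Set.prod_mono subset_rfl Set.Ico_subset_Icc_self), Measure.prod_prod, kbs_nu_cube, kbs_tm_Ico, one_mul]

theorem kbs_nuC (v : KbVer) (c : (kbsY v).C) : (kbsY v).nuC c = 1 := kbs_nu_cube v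

theorem kbs_sys_mass (v : KbVer) : (kbsY v).mass = 1 := by
  unfold KbSys.mass
  simp only [kbs_mC]
  show ∑ _c : Unit, (1 : ℝ≥0∞) * 1 = 1
  simp

theorem kbs_sys_wf (v : KbVer) : (kbsY v).WF where
  iv_lt := fun _ => by
    show 0 < 2 ^ 0
    norm_num
  A_meas := fun _ => kbs_cube_meas v
  A_sub := fun _ => subset_rfl
  A_disj := fun c c' h _ _ => absurd (Subsingleton.elim (α := Unit) c c') h
  S_meas := fun _ => (kbs_cube_meas v).prod measurableSet_Ico
  S_sub := fun c => by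
    rw [kbs_I]
    exact Set.subset_inter (Set.prod_mono subset_rfl Set.Ico_subset_Icc_self) subset_rfl
  inv := fun _ => by
    show (1 : Matrix (Fin v.j) (Fin v.j) ℝ) * 1 = 1
    rw [mul_one]
  adm := fun _ => kbs_T_adm v

theorem kbs_sys_geo_ge (v : KbVer) {K : ℝ} (hK : 4 ≤ K) : (kbsY v).Geo K 1 where
  size := fun _ => by
    rw [kbs_q]
    exact (kbs_Mn v).trans (by linarith)
  box := fun c l hl t ht => by
    rw [kbs_I] at ht
    show ‖(1 : Matrix (Fin v.j) (Fin v.j) ℝ).mulVec (kbY l t - ((0 : KbB v) + t • (0 : KbB v)))‖ ≤ K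
    rw [Matrix.one_mulVec, smul_zero, add_zero, sub_zero]
    exact (kbs_Y_le hl (Set.Ico_subset_Icc_self ht)).trans (by linarith)
  val := fun c l hl t ht => by
    rw [kbs_I] at ht
    show |kbW l t| ≤ K * 1
    exact (kbs_W_le hl (Set.Ico_subset_Icc_self ht)).trans (by linarith)
  dw := fun _ l _ t _ => by
    show |kbDw (kbsT v) t (kbY l t) (kbW l t)| ≤ K * 1
    rw [kbs_T_dw, abs_one]
    linarith
  dw_low := fun _ x _ => by
    show (1 : ℝ) ≤ K * |kbDw (kbsT v) x.2 (kbY x.1 x.2) (kbW x.1 x.2)|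
    rw [kbs_T_dw, abs_one]
    linarith
  dww := fun _ t y w => by
    show |kbDww (kbsT v) t y w| * 1 ≤ K * 1 ^ 2
    rw [kbs_T_dww, abs_zero]
    linarith

theorem kbs_sys_geo (v : KbVer) : (kbsY v).Geo 4 1 := kbs_sys_geo_ge v le_rfl

theorem kbs_sys_big_ge (v : KbVer) {K : ℝ} (hK : 4 ≤ K) : (kbsY v).Big K := by
  unfold KbSys.Big
  rw [kbs_sys_mass, mul_one]
  exact ENNReal.one_le_ofReal.2 (by linarith)

theorem kbs_sys_big (v : KbVer) : (kbsY v).Big 4 := kbs_sys_big_ge v le_rfl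

theorem kbs_sys_tmp_ge (v : KbVer) {Q : ℝ} (hQ : 4 ≤ Q) : (kbsY v).Tmp Q where
  card := by
    show ((Fintype.card Unit : ℕ) : ℝ) ≤ Q
    simp only [Fintype.card_unit, Nat.cast_one]
    linarith
  q_low := by
    rw [kbs_q]
    linarith
  J_low := fun _ => by
    show (1 : ℝ) ≤ Q * (kbsCh v).J
    rw [kbs_J]
    linarith
  cen := fun _ => by
    show ‖(0 : KbB v)‖ + ‖(0 : KbB v)‖ ≤ Q
    rw [norm_zero]
    linarith

theorem kbs_sys_tmp (v : KbVer) : (kbsY v).Tmp 4 := kbs_sys_tmp_ge v le_rfl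

theorem kbs_sys_tru (v : KbVer) : (kbsY v).Tru 4 1 := by
  intro c
  rw [kbs_mC, kbs_q]
  show ENNReal.ofReal (1 * (kbsCh v).J * 1) ≤ ENNReal.ofReal 4 * 1
  rw [kbs_J]
  simp only [mul_one]
  exact ENNReal.ofReal_le_ofReal (by norm_num)

theorem kbs_sys_sat (v : KbVer) : (kbsY v).Sat 4 1 := by
  intro c
  rw [kbs_mC, kbs_nuC, kbs_q]
  show ENNReal.ofReal 1 * 1 ≤ ENNReal.ofReal 4 * 1 ∧ 1 ≤ ENNReal.ofReal (4 * 1 * (kbsCh v).J) ∧ ENNReal.ofReal (1 * (kbsCh v).J) ≤ ENNReal.ofReal 4 * 1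
  rw [kbs_J]
  simp only [mul_one]
  exact ⟨ENNReal.ofReal_le_ofReal (by norm_num), ENNReal.one_le_ofReal.2 (by norm_num), ENNReal.ofReal_le_ofReal (by norm_num)⟩

theorem kbs_sys_known (v : KbVer) {D : Type} (ℓ : (kbsP v).Lab D) : (kbsY v).Known ℓ 1 := by
  refine ⟨fun _ _ _ => Finset.univ, fun _ _ _ => ?_, fun _ _ _ => ?_, fun c _ _ => Finset.mem_univ c⟩
  · show (((Finset.univ : Finset Unit).card : ℕ) : ℝ) ≤ 1
    simp
  · simp

/-! ## the constant sequence: an exact problem with a chart system at depth `0` and time cost `0` -/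

/-- the constant exact problem -/
def kbsE (v : KbVer) (R : KbRes) : KbEx v := ⟨R, 1, fun _ => kbsP v⟩

theorem kbs_ex_ok (v : KbVer) (R : KbRes) : (kbsE v R).Ok := by
  refine ⟨one_pos, ⟨2, Filter.Eventually.of_forall fun k => ⟨kbs_wf v, kbs_tmp_ge v ?_⟩⟩, fun τ hτ => ?_⟩
  · show (4 : ℝ) ≤ R.N k ^ (2 : ℝ)
    have h2 := R.two_le k
    rw [Real.rpow_two]
    nlinarith
  · filter_upwards [(kb_rpow_tendsto R hτ).eventually_ge_atTop 4] with k hk
    exact kbs_ntv_ge v hk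

theorem kbs_ex_sys (v : KbVer) (R : KbRes) : (kbsE v R).IsSys (fun _ => kbsY v) 0 0 := by
  refine ⟨⟨2, Filter.Eventually.of_forall fun k => ⟨kbs_sys_wf v, kbs_sys_tmp_ge v ?_⟩⟩, fun τ hτ => ?_, fun τ hτ => ?_⟩
  · show (4 : ℝ) ≤ R.N k ^ (2 : ℝ)
    have h2 := R.two_le k
    rw [Real.rpow_two]
    nlinarith
  · filter_upwards [(kb_rpow_tendsto R hτ).eventually_ge_atTop 4] with k hk
    have ha : (kbsE v R).a 0 k = 1 := by
      show R.N k ^ (-(0 : ℝ)) = 1
      rw [neg_zero, Real.rpow_zero]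
    rw [ha]
    exact ⟨kbs_sys_geo_ge v hk, kbs_sys_big_ge v hk⟩
  · refine Filter.Eventually.of_forall fun k => ?_
    show R.N k ^ (-0 - τ) ≤ (kbsY v).q ∧ (kbsY v).q ≤ R.N k ^ (-0 + τ)
    rw [kbs_q]
    constructor
    · exact Real.rpow_le_one_of_one_le_of_nonpos (kb_res_one_le R k) (by linarith)
    · exact Real.one_le_rpow (kb_res_one_le R k) (by linarith)

theorem kbs_eqns_cite : True := by
  have := @kbsE.eq_1
  have := @kbsC.eq_1
  have := @kbsCube.eq_1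
  have := @kbsT.eq_1
  have := @kbsP.eq_1
  have := @kbsCh.eq_1
  have := @kbsY.eq_1
  trivial

end

end Claimed.Agent.R252
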