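import Claimed.Agent.R252.Base.Lang
import Claimed.Agent.R252.Base.Norm

/-!
# ROW 252 (S0492), unit BASE (chief architect helper103), file 5: EXACT PROBLEMS = SEQUENCES ALONG THE ULTRAFILTER  (02-framework.tex Def 2.1, 2.6, 2.8, 2.14).      Definitions only.

* `KbEx v`            an exact problem: resolution `R`, length `L`, one-scale problems `P k`.     `E.Ok` = Def 2.1 + 2.2 (`∃ M`, and for every `τ` eventually all bounds with slack `N^τ`).
* `E.Typ ℓ f`         the observation with label `ℓ` has typical density `N^{-f}`;  `E.TypUp`, `E.TypLo` one-sided.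
* `E.Hom f`           homogeneous with JOINT profile `f r u` (observation `(p_r, [V]_{a_u})`), `f r 0` = the profile `f(r)` of the paper.
* `E.Cap d S η f`     the cap class `C(d)` (Def 2.6); the angular cap (2.8) is the inequality `f L 0 + S u ≤ f L u`.
* `E.Sys`             sequences of chart systems;  `E.IsSys Y r h` chart system at depth `r`, time cost `h`;  `E.IsTrue Y e` (true floor against `n = N^{-e}`);  `E.IsKnown Y s` (label known by `p_s`).
* `E.Hor f`           the minimum horizon `H(E)` (Def 2.14).  Further selections are inside `Y.S`; subsequences do not exist.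
* `E.norm Y r`, `E.lift Y r Y'`, `E.sel S`, `E.coarsen r`, `E.rebase` : the operations on exact problems.
-/

set_option autoImplicit false

namespace Claimed.Agent.R252

open MeasureTheory Filter Topology
open Claimed.Agent.R255 (uf)
open scoped ENNReal BigOperators

noncomputable section

/-- **an exact problem** (data only) -/
structure KbEx (v : KbVer) where
  R : KbRes
  L : ℝ
  P : ℕ → KbPb v

variable {v : KbVer}

namespace KbEx

variable (E : KbEx v)

/-- `a_r = N^{-r}` -/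
def a (r : ℝ) (k : ℕ) : ℝ := E.R.N k ^ (-r)

/-- Definition 2.1 + 2.2.   DESIGN RULE (helper216): every sequence predicate is `∀ τ > 0, ∀ᶠ k in uf, Φ (N k ^ τ) (obj k)` with `Φ` one-scale and monotone in the slack;
`kb_subp_of_forall` turns it into ONE subpower `K`, `kb_exclusion` gives its failure at a fixed power. -/
def Ok : Prop :=
  0 < E.L ∧ (∃ M : ℝ, ∀ᶠ k in uf, (E.P k).WF ∧ (E.P k).Tmp (E.R.N k ^ M)) ∧ ∀ τ : ℝ, 0 < τ → ∀ᶠ k in uf, (E.P k).Ntv (E.R.N k ^ τ)

/-- sequences of labels -/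
abbrev Lab (D : Type) := ∀ k, (E.P k).Lab D

/-- sequences of selections -/
abbrev Sel := ∀ k, (E.P k).W → Set ((E.P k).Lam × ℝ)

/-- mass of a sequence of families of incidence sets -/
def massOf (S : E.Sel) : ℕ → ℝ := fun k => ((E.P k).mass (S k)).toReal

/-- typical upper bound `N^{-f}` for the density of an observation -/
def TypUp {D : Type} (ℓ : E.Lab D) (f : ℝ) : Prop :=
  ∀ τ : ℝ, 0 < τ → KbPow E.R (E.massOf fun k => (E.P k).above (ℓ k) (E.R.N k ^ (-f + τ)))

/-- typical lower bound -/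
def TypLo {D : Type} (ℓ : E.Lab D) (f : ℝ) : Prop :=
  ∀ τ : ℝ, 0 < τ → KbPow E.R (E.massOf fun k => (E.P k).below (ℓ k) (E.R.N k ^ (-f - τ)))

/-- the density is typically `N^{-f}` -/
def Typ {D : Type} (ℓ : E.Lab D) (f : ℝ) : Prop := E.TypUp ℓ f ∧ E.TypLo ℓ f

/-- the label of `p_r` -/
def hid (r : ℝ) : E.Lab ℤ := fun k => (E.P k).hid (E.a r k)

/-- the label of `(p_r, [V]_{a_u})` -/
def hv (r u : ℝ) : E.Lab (ℤ × (Fin v.j → ℤ)) := fun k => (E.P k).hv (E.a r k) (E.a u k)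

/-- homogeneous with joint profile `f r u` -/
structure Hom (f : ℝ → ℝ → ℝ) : Prop where
  pure : ∀ r ∈ Set.Icc 0 E.L, E.Typ (E.hid r) (f r 0)
  joint : ∀ r ∈ Set.Icc 0 E.L, ∀ u : ℝ, 0 ≤ u → E.Typ (E.hv r u) (f r u)

/-- the cap class `C(d)` with parameters `S, η` -/
structure Cap (d S η : ℝ) (f : ℝ → ℝ → ℝ) : Prop where
  ok : E.Ok
  hom : E.Hom f
  d_lt : d < 1
  endp : ∀ r ∈ Set.Icc 0 E.L, f E.L 0 - f r 0 ≤ d * (E.L - r)
  ang : ∀ u : ℝ, 0 < u → u ≤ η * E.L → f E.L 0 + S * u ≤ f E.L u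

/-- sequences of chart systems -/
abbrev Sys := ∀ k, KbSys (E.P k)

/-- chart system at depth `r` with time cost `h` -/
def IsSys (Y : E.Sys) (r h : ℝ) : Prop :=
  (∃ M : ℝ, ∀ᶠ k in uf, (Y k).WF ∧ (Y k).Tmp (E.R.N k ^ M)) ∧
  (∀ τ : ℝ, 0 < τ → ∀ᶠ k in uf, (Y k).Geo (E.R.N k ^ τ) (E.a r k) ∧ (Y k).Big (E.R.N k ^ τ)) ∧
  KbExp E.R (fun k => (Y k).q) h

/-- every packet is true against the density `N^{-e}` -/
def IsTrue (Y : E.Sys) (e : ℝ) : Prop := ∀ τ : ℝ, 0 < τ → ∀ᶠ k in uf, (Y k).Tru (E.R.N k ^ τ) (E.R.N k ^ (-e))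

/-- every packet is saturated against the density `N^{-e}` -/
def IsSat (Y : E.Sys) (e : ℝ) : Prop := ∀ τ : ℝ, 0 < τ → ∀ᶠ k in uf, (Y k).Sat (E.R.N k ^ τ) (E.R.N k ^ (-e))

/-- the label is known by `p_s` -/
def IsKnown (Y : E.Sys) (s : ℝ) : Prop := ∀ τ : ℝ, 0 < τ → ∀ᶠ k in uf, (Y k).Known (E.hid s k) (E.R.N k ^ τ)

/-- known atlas at depth `r` with time cost `h` -/
def IsAtlas (Y : E.Sys) (r h : ℝ) : Prop := E.IsSys Y r h ∧ E.IsKnown Y E.L

/-- true system at depth `r` (for the profile `f`) -/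
def IsTrueSys (f : ℝ → ℝ → ℝ) (Y : E.Sys) (r h : ℝ) : Prop := E.IsSys Y r h ∧ E.IsTrue Y (f r 0)

/-- the costs of the true terminal systems -/
def costs (f : ℝ → ℝ → ℝ) : Set ℝ := {h | 0 ≤ h ∧ ∃ Y : E.Sys, E.IsTrueSys f Y E.L h}

/-- **the minimum horizon** `H(E)` -/
def Hor (f : ℝ → ℝ → ℝ) : ℝ := sInf (E.costs f)

/-- common exponent of a positive chart quantity: `x_c = N^{-e + o(1)}` uniformly in the labels -/
def ChExp (Y : E.Sys) (x : ∀ k, (Y k).C → ℝ) (e : ℝ) : Prop :=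
  ∀ τ : ℝ, 0 < τ → ∀ᶠ k in uf, ∀ c, E.R.N k ^ (-e - τ) ≤ x k c ∧ x k c ≤ E.R.N k ^ (-e + τ)

/-- narrowness exponent (2.22): `q^2 / J_c = N^{ℓ}` -/
def Narrow (Y : E.Sys) (ell : ℝ) : Prop := E.ChExp Y (fun k c => (Y k).q ^ 2 / ((Y k).ch c).J) (-ell)

/-- a further selection -/
def sel (S : E.Sel) : KbEx v := { E with P := fun k => (E.P k).sel (S k) }

/-- coarsening to the end point `r` -/
def coarsen (r : ℝ) : KbEx v := { E with L := r }

/-- normalisation through a system at depth `r` -/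
def norm (Y : E.Sys) (r : ℝ) : KbEx v where
  R := E.R
  L := E.L - r
  P := fun k => (Y k).norm (E.a r k)

/-- lifting -/
def lift (Y : E.Sys) (r : ℝ) (Y' : (E.norm Y r).Sys) : E.Sys := fun k => (Y k).lift (E.a r k) (Y' k)

/-- change of units `N₀ ↦ N₀^c` : depths, costs and log-densities are divided by `c` -/
def rebase (c : ℝ) (hc : 0 < c) : KbEx v where
  R := E.R.pow c hc
  L := E.L / c
  P := E.P

end KbEx

/-- bad problems exist in `C(d)` -/
def KbBad (v : KbVer) (S η d : ℝ) : Prop := ∃ (E : KbEx v) (f : ℝ → ℝ → ℝ), E.Cap d S η f ∧ 0 < E.Hor f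

/-- forces the on-demand equation lemmas of ALL definitions of this file to live HERE (RULES.md, rule 6: copies in two consumer files collide in the joint check) -/
theorem kb_seq_eqns_cite : True := by
  have := @KbBad.eq_1
  have := @KbEx.ChExp.eq_1
  have := @KbEx.Hor.eq_1
  have := @KbEx.IsAtlas.eq_1
  have := @KbEx.IsKnown.eq_1
  have := @KbEx.IsSat.eq_1
  have := @KbEx.IsSys.eq_1
  have := @KbEx.IsTrue.eq_1
  have := @KbEx.IsTrueSys.eq_1
  have := @KbEx.Lab.eq_1
  have := @KbEx.Narrow.eq_1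
  have := @KbEx.Ok.eq_1
  have := @KbEx.Sel.eq_1
  have := @KbEx.Sys.eq_1
  have := @KbEx.Typ.eq_1
  have := @KbEx.TypLo.eq_1
  have := @KbEx.TypUp.eq_1
  have := @KbEx.a.eq_1
  have := @KbEx.coarsen.eq_1
  have := @KbEx.costs.eq_1
  have := @KbEx.hid.eq_1
  have := @KbEx.hv.eq_1
  have := @KbEx.lift.eq_1
  have := @KbEx.massOf.eq_1
  have := @KbEx.norm.eq_1
  have := @KbEx.rebase.eq_1
  have := @KbEx.sel.eq_1
  trivial

end

end Claimed.Agent.R252
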