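import Claimed.Agent.R252.Base.Pb

/-!
# ROW 252 (S0492), unit BASE (chief architect helper103), file 3: ONE-SCALE CHART SYSTEMS  (02-framework.tex Def 2.8, l.397-470).      Definitions only.

`KbSys P` = data of a chart system of the problem `P` : common dyadic time partition `q = 2^{-n}`, finite label type `C`, for each label its world, interval, trajectory assignment `A c`,
incidence selection `S c`, chart `ch c` (affine centre, matrix `D`, its inverse `Di`, test `T`).  A *packet* is a label `c` of a system.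
Predicates (explicit slack `K`, thickness `a = a_r`):
* `Y.WF`          structural requirements (disjoint assignments inside one world and interval, `S c ⊆ Ev ∩ A c × I_c`, `D * Di = 1`, tests of the model class);
* `Y.Geo K a`     (2.9) + (2.10);          * `Y.Big K`   selected mass `≥ 1/K`;
* `Y.Tru K n`     true floor (2.11) for EVERY label, `n = n(r)`;          * `Y.Sat K n`  saturation (2.13);
* `Y.Known ℓ K`   the label is known by the observation with discrete label `ℓ` : list function of size `≤ K`, containing the label on ALL selected incidences ('permitted pruning' has already been done).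
  known atlas at depth `r` = `WF ∧ Geo K a_r ∧ Big K ∧ Known (P.hid a_L) K`.
-/

set_option autoImplicit false

namespace Claimed.Agent.R252

open MeasureTheory
open scoped ENNReal BigOperators

noncomputable section

variable {v : KbVer}

/-- `q = 2^{-n}` -/
def kbQ (n : ℕ) : ℝ := (1 / 2 : ℝ) ^ n

/-- the `i`-th interval of the dyadic partition of `[0,1)` of level `n` -/
def kbI (n i : ℕ) : Set ℝ := Set.Ico ((i : ℝ) * kbQ n) (((i : ℝ) + 1) * kbQ n)

/-- size of a matrix (sum of the absolute values of the entries) -/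
def kbMn {m : ℕ} (D : Matrix (Fin m) (Fin m) ℝ) : ℝ := ∑ i, ∑ k, |D i k|

/-- geometric data of a chart -/
structure KbChart (v : KbVer) where
  /-- the centre is `y_c(t) = y0 + t y1` -/
  y0 : KbB v
  y1 : KbB v
  D : Matrix (Fin v.j) (Fin v.j) ℝ
  /-- the inverse of `D` -/
  Di : Matrix (Fin v.j) (Fin v.j) ℝ
  T : KbTest v

/-- the centre -/
def KbChart.yc (ch : KbChart v) (t : ℝ) : KbB v := ch.y0 + t • ch.y1

/-- `J_c = |det D_c|` -/
def KbChart.J (ch : KbChart v) : ℝ := |ch.D.det|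

/-- **a chart system at one scale** (data only) -/
structure KbSys (P : KbPb v) where
  /-- time partition of level `n` -/
  n : ℕ
  /-- chart labels -/
  C : Type
  fC : Fintype C
  wd : C → P.W
  iv : C → ℕ
  A : C → Set P.Lam
  S : C → Set (P.Lam × ℝ)
  ch : C → KbChart v

attribute [instance] KbSys.fC

namespace KbSys

variable {P : KbPb v} (Y : KbSys P)

/-- common time length -/
def q : ℝ := kbQ Y.n

/-- left end point of the interval of a chart -/
def tc (c : Y.C) : ℝ := (Y.iv c : ℝ) * kbQ Y.n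

/-- the interval of a chart -/
def I (c : Y.C) : Set ℝ := kbI Y.n (Y.iv c)

/-- `ν_c` -/
def nuC (c : Y.C) : ℝ≥0∞ := P.nu (Y.wd c) (Y.A c)

/-- `m_c` -/
def mC (c : Y.C) : ℝ≥0∞ := P.mu (Y.wd c) (Y.S c)

/-- selected mass of the system -/
def mass : ℝ≥0∞ := ∑ c, P.om (Y.wd c) * Y.mC c

/-- `Z = ∑ ω q ν_c` -/
def Z : ℝ≥0∞ := ∑ c, P.om (Y.wd c) * ENNReal.ofReal Y.q * Y.nuC c

/-- structural requirements -/
structure WF : Prop where
  iv_lt : ∀ c, Y.iv c < 2 ^ Y.n
  A_meas : ∀ c, MeasurableSet (Y.A c)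
  A_sub : ∀ c, Y.A c ⊆ P.Sp (Y.wd c)
  A_disj : ∀ c c', c ≠ c' → Y.wd c = Y.wd c' → Y.iv c = Y.iv c' → Disjoint (Y.A c) (Y.A c')
  S_meas : ∀ c, MeasurableSet (Y.S c)
  S_sub : ∀ c, Y.S c ⊆ P.Ev (Y.wd c) ∩ Y.A c ×ˢ Y.I c
  inv : ∀ c, (Y.ch c).D * (Y.ch c).Di = 1
  adm : ∀ c, KbAdm (Y.ch c).T

/-- the chart bounds (2.9), (2.10) at thickness `a`, slack `K` -/
structure Geo (K a : ℝ) : Prop where
  size : ∀ c, kbMn (Y.ch c).D ≤ Y.q * K
  box : ∀ c, ∀ l ∈ Y.A c, ∀ t ∈ Y.I c, ‖(Y.ch c).Di.mulVec (kbY (P.co (Y.wd c) l) t - (Y.ch c).yc t)‖ ≤ K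
  val : ∀ c, ∀ l ∈ Y.A c, ∀ t ∈ Y.I c, |kbX (Y.ch c).T (P.co (Y.wd c) l) t| ≤ K * a
  dw : ∀ c, ∀ l ∈ Y.A c, ∀ t ∈ Y.I c, |kbX (kbDw (Y.ch c).T) (P.co (Y.wd c) l) t| ≤ K * P.B (Y.wd c)
  dw_low : ∀ c, ∀ x ∈ Y.S c, P.B (Y.wd c) ≤ K * |kbX (kbDw (Y.ch c).T) (P.co (Y.wd c) x.1) x.2|
  dww : ∀ c t y w, |kbDww (Y.ch c).T t y w| * a ≤ K * P.B (Y.wd c) ^ 2

/-- selected mass at least `1/K` -/
def Big (K : ℝ) : Prop := 1 ≤ ENNReal.ofReal K * Y.mass

/-- true floor (2.11): `m_c / q ≥ n J_c / K` for every label -/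
def Tru (K n : ℝ) : Prop := ∀ c, ENNReal.ofReal (n * (Y.ch c).J * Y.q) ≤ ENNReal.ofReal K * Y.mC c

/-- saturation (2.13): `m_c / q ∼ ν_c ∼ n J_c` -/
def Sat (K n : ℝ) : Prop :=
  ∀ c, ENNReal.ofReal Y.q * Y.nuC c ≤ ENNReal.ofReal K * Y.mC c ∧ Y.nuC c ≤ ENNReal.ofReal (K * n * (Y.ch c).J) ∧
    ENNReal.ofReal (n * (Y.ch c).J) ≤ ENNReal.ofReal K * Y.nuC c

/-- the chart label is known by the observation (exact base, `ℓ`) up to lists of size `K` -/
def Known {D : Type} (ℓ : P.Lab D) (K : ℝ) : Prop :=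
  ∃ Lst : P.W → D → ℝ × KbB v → Finset Y.C, (∀ γ d o, ((Lst γ d o).card : ℝ) ≤ K) ∧ (∀ γ d c, MeasurableSet {o | c ∈ Lst γ d o}) ∧
    ∀ c, ∀ x ∈ Y.S c, c ∈ Lst (Y.wd c) (ℓ (Y.wd c) x) (P.bs (Y.wd c) x)

/-- polynomial bounds on a system -/
structure Tmp (Q : ℝ) : Prop where
  card : (Fintype.card Y.C : ℝ) ≤ Q
  q_low : 1 ≤ Q * Y.q
  J_low : ∀ c, 1 ≤ Q * (Y.ch c).J
  cen : ∀ c, ‖(Y.ch c).y0‖ + ‖(Y.ch c).y1‖ ≤ Q

/-- the union of the selections, world by world -/
def sel : P.W → Set (P.Lam × ℝ) := fun γ => ⋃ c, ⋃ (_ : Y.wd c = γ), Y.S c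

/-- restriction of a system to a set of labels and to smaller selections -/
def restr (keep : Set Y.C) (S' : Y.C → Set (P.Lam × ℝ)) : KbSys P where
  n := Y.n
  C := keep
  fC := Fintype.ofFinite _
  wd := fun c => Y.wd c
  iv := fun c => Y.iv c
  A := fun c => Y.A c
  S := fun c => Y.S c ∩ S' c
  ch := fun c => Y.ch c

end KbSys

/-- forces the on-demand equation lemmas of ALL definitions of this file to live HERE (RULES.md, rule 6: copies in two consumer files collide in the joint check) -/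
theorem kb_sys_eqns_cite : True := by
  have := @KbChart.J.eq_1
  have := @KbChart.yc.eq_1
  have := @KbSys.Big.eq_1
  have := @KbSys.I.eq_1
  have := @KbSys.Known.eq_1
  have := @KbSys.Sat.eq_1
  have := @KbSys.Tru.eq_1
  have := @KbSys.Z.eq_1
  have := @KbSys.mC.eq_1
  have := @KbSys.mass.eq_1
  have := @KbSys.nuC.eq_1
  have := @KbSys.q.eq_1
  have := @KbSys.restr.eq_1
  have := @KbSys.sel.eq_1
  have := @KbSys.tc.eq_1
  have := @kbI.eq_1
  have := @kbMn.eq_1
  have := @kbQ.eq_1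
  trivial

end

end Claimed.Agent.R252
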