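import Claimed.Agent.R252.Base.Lang

/-!
# ROW 252 (S0492), unit BASE, file TRANSFER: sequence theorems along `uf`  <->  uniform finite-scale theorems      (helper216; prefix `kb_`)

HUBS AND CORES ARE STATED AT FINITE SCALE, hubs are PROVED along the ultrafilter; the two lemmas below are the only bridge.
`Obj` = the one-scale data (any universe), `N` = its scale, `Hyp τ'` = "all hypotheses with slack `τ'`" (monotone in the slack), `Concl τ` = "the conclusion with slack `τ`".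
* `kb_transfer`       : (for all sequences: hypotheses with every fixed slack eventually ⟹ conclusion with every fixed slack eventually)  ⟹  `∀ τ ∃ τ' N₁ ∀ o, ...`
* `kb_transfer_conv`  : the converse, used to APPLY a finite-scale hub or core inside a proof along `uf`.
* `kb_transfer_K`     : the same with multiplicative slacks `K = N^τ` (the shape of the cores: `Hyp K`, `Concl K'`).
* `kb_bad_seq`        : the negation of a finite-scale bound gives ONE bad sequence (start of every proof by contradiction).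
No sorry.
-/

set_option autoImplicit false

namespace Claimed.Agent.R252

open Filter Topology
open Claimed.Agent.R255 (uf uf_le_atTop uf_neBot)

universe u

theorem kb_inv_tendsto : Tendsto (fun k : ℕ => 1 / ((k : ℝ) + 1)) uf (𝓝 0) :=
  (tendsto_one_div_add_atTop_nhds_zero_nat (𝕜 := ℝ)).mono_left uf_le_atTop

theorem kb_cast_tendsto : Tendsto (fun k : ℕ => (k : ℝ)) uf atTop :=
  tendsto_natCast_atTop_atTop.mono_left uf_le_atTop

/-- the negation of a uniform finite-scale statement produces one bad sequence -/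
theorem kb_bad_seq {Obj : Type u} (N : Obj → ℝ) (Hyp : ℝ → Obj → Prop) (Bad : Obj → Prop)
    (hmono : ∀ a b o, a ≤ b → Hyp a o → Hyp b o)
    (h : ¬ ∃ τ' : ℝ, 0 < τ' ∧ ∃ N₁ : ℝ, ∀ o, N₁ ≤ N o → Hyp τ' o → ¬ Bad o) :
    ∃ o : ℕ → Obj, Tendsto (fun n => N (o n)) uf atTop ∧ (∀ τ : ℝ, 0 < τ → ∀ᶠ n in uf, Hyp τ (o n)) ∧
      ∀ n, Bad (o n) := by
  push Not at h
  have hch : ∀ n : ℕ, ∃ o, (n : ℝ) ≤ N o ∧ Hyp (1 / ((n : ℝ) + 1)) o ∧ Bad o :=
    fun n => h _ (by positivity) n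
  choose o h1 h2 h3 using hch
  refine ⟨o, tendsto_atTop_mono h1 kb_cast_tendsto, fun t ht => ?_, h3⟩
  filter_upwards [kb_inv_tendsto.eventually_lt_const ht] with n hn
  exact hmono _ _ _ hn.le (h2 n)

/-- **Transfer**: from sequences to the uniform finite-scale statement -/
theorem kb_transfer {Obj : Type u} (N : Obj → ℝ) (Hyp Concl : ℝ → Obj → Prop)
    (hmono : ∀ a b o, a ≤ b → Hyp a o → Hyp b o)
    (hseq : ∀ o : ℕ → Obj, Tendsto (fun n => N (o n)) uf atTop →
      (∀ τ : ℝ, 0 < τ → ∀ᶠ n in uf, Hyp τ (o n)) → ∀ τ : ℝ, 0 < τ → ∀ᶠ n in uf, Concl τ (o n)) :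
    ∀ τ : ℝ, 0 < τ → ∃ τ' : ℝ, 0 < τ' ∧ ∃ N₁ : ℝ, ∀ o, N₁ ≤ N o → Hyp τ' o → Concl τ o := by
  intro τ hτ
  by_contra hcon
  obtain ⟨o, hN, hH, hB⟩ := kb_bad_seq N Hyp (fun o => ¬ Concl τ o) hmono (by simpa using hcon)
  have := uf_neBot
  obtain ⟨n, hn⟩ := (hseq o hN hH τ hτ).exists
  exact hB n hn

/-- the converse direction: a finite-scale statement applied to a sequence -/
theorem kb_transfer_conv {Obj : Type u} (N : Obj → ℝ) (Hyp Concl : ℝ → Obj → Prop)
    (hfin : ∀ τ : ℝ, 0 < τ → ∃ τ' : ℝ, 0 < τ' ∧ ∃ N₁ : ℝ, ∀ o, N₁ ≤ N o → Hyp τ' o → Concl τ o)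
    (o : ℕ → Obj) (hN : Tendsto (fun n => N (o n)) uf atTop)
    (hH : ∀ τ : ℝ, 0 < τ → ∀ᶠ n in uf, Hyp τ (o n)) (τ : ℝ) (hτ : 0 < τ) :
    ∀ᶠ n in uf, Concl τ (o n) := by
  obtain ⟨τ', h0, N₁, h⟩ := hfin τ hτ
  filter_upwards [hN.eventually_ge_atTop N₁, hH τ' h0] with n a b
  exact h _ a b

/-- transfer for multiplicative slacks: hypotheses `Hyp K`, conclusion `Concl K'`, both monotone, read with `K = N^τ` -/
theorem kb_transfer_K {Obj : Type u} (N : Obj → ℝ) (Hyp Concl : ℝ → Obj → Prop)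
    (hN1 : ∀ o, 1 ≤ N o) (hmono : ∀ a b o, a ≤ b → Hyp a o → Hyp b o)
    (hseq : ∀ o : ℕ → Obj, Tendsto (fun n => N (o n)) uf atTop →
      (∀ τ : ℝ, 0 < τ → ∀ᶠ n in uf, Hyp (N (o n) ^ τ) (o n)) →
      ∀ τ : ℝ, 0 < τ → ∀ᶠ n in uf, Concl (N (o n) ^ τ) (o n)) :
    ∀ τ : ℝ, 0 < τ → ∃ τ' : ℝ, 0 < τ' ∧ ∃ N₁ : ℝ, ∀ o, N₁ ≤ N o → Hyp (N o ^ τ') o → Concl (N o ^ τ) o :=
  kb_transfer N (fun t o => Hyp (N o ^ t) o) (fun t o => Concl (N o ^ t) o)
    (fun _ _ o hab h => hmono _ _ o (Real.rpow_le_rpow_of_exponent_le (hN1 o) hab) h) hseq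

/-- a sequence of one-scale objects whose scales tend to infinity gives a resolution sequence -/
noncomputable def kbResOf (N : ℕ → ℝ) (h : Tendsto N uf atTop) : KbRes where
  N := fun k => max 2 (N k)
  two_le := fun _ => le_max_left _ _
  lim := tendsto_atTop_mono (fun _ => le_max_right _ _) h

theorem kbResOf_eq (N : ℕ → ℝ) (h : Tendsto N uf atTop) : ∀ᶠ k in uf, (kbResOf N h).N k = N k := by
  filter_upwards [h.eventually_ge_atTop 2] with k hk
  exact max_eq_right hk

/-- forces the on-demand equation lemmas of ALL definitions of this file to live HERE (RULES.md, rule 6: copies in two consumer files collide in the joint check) -/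
theorem kb_transfer_eqns_cite : True := by
  have := @kbResOf.eq_1
  trivial

end Claimed.Agent.R252
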